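import Vale.Agent.P073.H339.Arcs2
import Vale.Agent.P073.H339.Glue2

/-!
# P073, block PRT: two points split a conical circle
-/

open Set Metric Topology Filter

namespace P073.PRT

open P073

variable {E : Type*} [NormedAddCommGroup E] [NormedSpace ℝ E]

/-- the open arc -/
theorem IsArc.open_arc {A : Set E} {p q : E} (h : IsArc A p q) :
    IsPreconnected (A \ {p, q}) ∧ p ∈ closure (A \ {p, q}) ∧ q ∈ closure (A \ {p, q}) := by
  obtain ⟨φ, h0, h1⟩ := h
  have m0 : (0 : ℝ) ∈ Icc (0 : ℝ) 1 := ⟨le_rfl, zero_le_one⟩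
  have m1 : (1 : ℝ) ∈ Icc (0 : ℝ) 1 := ⟨zero_le_one, le_rfl⟩
  have he : A \ {p, q} = φ.toFun '' Ioo 0 1 := by
    ext z
    constructor
    · rintro ⟨hz, hn⟩
      rw [← φ.image_eq] at hz
      obtain ⟨s, hs, rfl⟩ := hz
      refine ⟨s, ⟨lt_of_le_of_ne hs.1 ?_, lt_of_le_of_ne hs.2 ?_⟩, rfl⟩
      · rintro rfl; exact hn (Or.inl h0)
      · rintro rfl; exact hn (Or.inr h1)
    · rintro ⟨s, hs, rfl⟩
      have hs' := Ioo_subset_Icc_self hs
      refine ⟨φ.mapsTo hs', ?_⟩
      rintro (h | h)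
      · exact hs.1.ne' (φ.injOn hs' m0 (h.trans h0.symm))
      · exact hs.2.ne (φ.injOn hs' m1 ((show φ.toFun s = q from h).trans h1.symm))
  have hcl : ∀ s ∈ Icc (0 : ℝ) 1, φ.toFun s ∈ closure (A \ {p, q}) := by
    intro s hs
    rw [he]
    have h2 : ContinuousWithinAt φ.toFun (Icc 0 1) s := φ.cont s hs
    have h3 : s ∈ closure (Ioo (0 : ℝ) 1) := by
      rw [closure_Ioo zero_ne_one]; exact hs
    exact (h2.mono Ioo_subset_Icc_self).mem_closure_image h3
  refine ⟨?_, ?_, ?_⟩
  · rw [he]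
    exact isPreconnected_Ioo.image _ (φ.cont.mono Ioo_subset_Icc_self)
  · rw [← h0]; rw [h0]; have := hcl 0 m0; rwa [h0] at this
  · have := hcl 1 m1; rwa [h1] at this

/-- **Two points split a conical circle.** -/
theorem circle_split {C : Set E} (h : ConSphere 1 C) {p q : E} (hp : p ∈ C) (hq : q ∈ C)
    (hpq : p ≠ q) : ∃ A B : Set E, IsPreconnected A ∧ IsPreconnected B ∧ Disjoint A B ∧
      A ∪ B = C \ {p, q} ∧ p ∈ closure A ∧ q ∈ closure A ∧ p ∈ closure B ∧ q ∈ closure B ∧
      Disjoint (closure A) B ∧ Disjoint A (closure B) := by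
  obtain ⟨A, B, hA, hB, hAB, rfl⟩ :=
    H339.IsCircle.arcs_through (H339.conSphere_iff.1 h) hp hq hpq
  obtain ⟨a1, a2, a3⟩ := IsArc.open_arc hA
  obtain ⟨b1, b2, b3⟩ := IsArc.open_arc hB
  have hcl : ∀ {A : Set E}, IsArc A p q → IsClosed A := by
    rintro A ⟨φ, -, -⟩
    rw [← φ.image_eq]
    exact (isCompact_Icc.image_of_continuousOn φ.cont).isClosed
  refine ⟨A \ {p, q}, B \ {p, q}, a1, b1, ?_, ?_, a2, a3, b2, b3, ?_, ?_⟩
  · rw [Set.disjoint_left]
    rintro z ⟨hz, hn⟩ ⟨hz', -⟩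
    exact hn (hAB ⟨hz, hz'⟩)
  · rw [union_sdiff_distrib]
  · rw [Set.disjoint_left]
    rintro z hz ⟨hzB, hn⟩
    have : z ∈ A := (hcl hA).closure_subset (closure_mono sdiff_subset hz)
    exact hn (hAB ⟨this, hzB⟩)
  · rw [Set.disjoint_left]
    rintro z ⟨hzA, hn⟩ hz
    have : z ∈ B := (hcl hB).closure_subset (closure_mono sdiff_subset hz)
    exact hn (hAB ⟨hzA, this⟩)

omit [NormedSpace ℝ E] in
/-- preconnected subsets of a separated union -/
theorem subset_or_of_separated {A B H : Set E} (hH : IsPreconnected H) (hsub : H ⊆ A ∪ B)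
    (h1 : Disjoint (closure A) B) (h2 : Disjoint A (closure B)) : H ⊆ A ∨ H ⊆ B := by
  have key : H ⊆ closure A ∨ H ⊆ closure B := by
    by_contra hcon
    rw [not_or, Set.not_subset, Set.not_subset] at hcon
    obtain ⟨⟨u, hu, huA⟩, ⟨v, hv, hvB⟩⟩ := hcon
    obtain ⟨z, hz, hzA, hzB⟩ := isPreconnected_closed_iff.1 hH _ _ isClosed_closure
      isClosed_closure (hsub.trans (union_subset_union subset_closure subset_closure))
      (by
        refine ⟨v, hv, ?_⟩
        rcases hsub hv with h | h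
        · exact subset_closure h
        · exact absurd (subset_closure h) hvB)
      (by
        refine ⟨u, hu, ?_⟩
        rcases hsub hu with h | h
        · exact absurd (subset_closure h) huA
        · exact subset_closure h)
    rcases hsub hz with h | h
    · exact Set.disjoint_left.1 h2 h hzB
    · exact Set.disjoint_left.1 h1 hzA h
  rcases key with h | h
  · left
    intro z hz
    rcases hsub hz with h' | h'
    · exact h'
    · exact absurd h' (Set.disjoint_left.1 h1 (h hz))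
  · right
    intro z hz
    rcases hsub hz with h' | h'
    · exact absurd (h hz) (Set.disjoint_left.1 h2 h')
    · exact h'

end P073.PRT
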