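import Vale.Agent.P073.ConGlue

/-!
# P073, block PRT: products of conical sets, maps and balls
-/

open Set Metric Topology Filter

namespace P073

variable {E E' F F' : Type*} [NormedAddCommGroup E] [NormedSpace ℝ E]
  [NormedAddCommGroup F] [NormedSpace ℝ F] [NormedAddCommGroup E'] [NormedSpace ℝ E']
  [NormedAddCommGroup F'] [NormedSpace ℝ F']

theorem ConicalSetAt.prodM {X : Set E} {X' : Set E'} {x : E} {x' : E'} (h : ConicalSetAt X x)
    (h' : ConicalSetAt X' x') : ConicalSetAt (X ×ˢ X') (x, x') := by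
  obtain ⟨r, hr, h⟩ := h
  obtain ⟨s, hs, h'⟩ := h'
  refine ⟨min r s, lt_min hr hs, ?_⟩
  rintro ⟨v, v'⟩ hv ⟨h1, h2⟩ t ht
  rw [Prod.norm_def, sup_le_iff] at hv
  exact ⟨h v (hv.1.trans (min_le_left _ _)) h1 t ht,
    h' v' (hv.2.trans (min_le_right _ _)) h2 t ht⟩

theorem ConicalSet.prodM {X : Set E} {X' : Set E'} (h : ConicalSet X) (h' : ConicalSet X') :
    ConicalSet (X ×ˢ X') := fun z hz => (h z.1 hz.1).prodM (h' z.2 hz.2)

theorem ConicalWithinAt.prodMap {X : Set E} {X' : Set E'} {f : E → F} {f' : E' → F'} {x : E}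
    {x' : E'} (h : ConicalWithinAt f X x) (h' : ConicalWithinAt f' X' x') :
    ConicalWithinAt (Prod.map f f') (X ×ˢ X') (x, x') := by
  obtain ⟨r, hr, h⟩ := h
  obtain ⟨s, hs, h'⟩ := h'
  refine ⟨min r s, lt_min hr hs, ?_⟩
  rintro ⟨v, v'⟩ hv ⟨h1, h2⟩ t ht
  rw [Prod.norm_def, sup_le_iff] at hv
  obtain ⟨a1, a2⟩ := h v (hv.1.trans (min_le_left _ _)) h1 t ht
  obtain ⟨b1, b2⟩ := h' v' (hv.2.trans (min_le_right _ _)) h2 t ht
  refine ⟨⟨a1, b1⟩, ?_⟩
  exact Prod.ext a2 b2

theorem ConicalOn.prodMap {X : Set E} {X' : Set E'} {f : E → F} {f' : E' → F'}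
    (h : ConicalOn f X) (h' : ConicalOn f' X') : ConicalOn (Prod.map f f') (X ×ˢ X') :=
  fun z hz => (h z.1 hz.1).prodMap (h' z.2 hz.2)

/-- product of two conical homeomorphisms -/
def ConHomeo.prodM {X : Set E} {Y : Set F} {X' : Set E'} {Y' : Set F'} (h : ConHomeo X Y)
    (k : ConHomeo X' Y') : ConHomeo (X ×ˢ X') (Y ×ˢ Y') where
  toFun := Prod.map h.toFun k.toFun
  invFun := Prod.map h.invFun k.invFun
  mapsTo := fun _ hz => ⟨h.mapsTo hz.1, k.mapsTo hz.2⟩
  mapsTo_inv := fun _ hz => ⟨h.mapsTo_inv hz.1, k.mapsTo_inv hz.2⟩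
  left_inv := fun _ hz => Prod.ext (h.left_inv hz.1) (k.left_inv hz.2)
  right_inv := fun _ hz => Prod.ext (h.right_inv hz.1) (k.right_inv hz.2)
  cont := h.cont.prodMap k.cont
  cont_inv := h.cont_inv.prodMap k.cont_inv
  conical := h.conical.prodMap k.conical

@[simp] theorem ConHomeo.prodM_toFun {X : Set E} {Y : Set F} {X' : Set E'} {Y' : Set F'}
    (h : ConHomeo X Y) (k : ConHomeo X' Y') : (h.prodM k).toFun = Prod.map h.toFun k.toFun := rfl

/-- restriction of a continuous linear equivalence -/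
def ConHomeo.ofCLE (L : E ≃L[ℝ] F) {X : Set E} (hX : ConicalSet X) : ConHomeo X (L '' X) where
  toFun := L
  invFun := L.symm
  mapsTo := mapsTo_image _ _
  mapsTo_inv := by
    rintro _ ⟨x, hx, rfl⟩
    simpa using hx
  left_inv := fun x _ => L.symm_apply_apply x
  right_inv := fun x _ => L.apply_symm_apply x
  cont := L.continuous.continuousOn
  cont_inv := L.symm.continuous.continuousOn
  conical := conicalOn_linear (L : E →ₗ[ℝ] F) hX

@[simp] theorem ConHomeo.ofCLE_toFun (L : E ≃L[ℝ] F) {X : Set E} (hX : ConicalSet X) :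
    (ConHomeo.ofCLE L hX).toFun = L := rfl

/-- the product of a cell with the interval `[-1,1]`: its boundary -/
def prodBd (C B : Set E) : Set (E × ℝ) := B ×ˢ Icc (-1) 1 ∪ C ×ˢ {-1, 1}

/-- the sup norm on `(Fin n → ℝ) × ℝ` and `Fin (n+1) → ℝ` -/
noncomputable def snocCLE (n : ℕ) : ((Fin n → ℝ) × ℝ) ≃L[ℝ] (Fin (n + 1) → ℝ) :=
  LinearEquiv.toContinuousLinearEquiv
    { toFun := fun p => Fin.snoc p.1 p.2
      invFun := fun f => (fun i => f i.castSucc, f (Fin.last n))
      left_inv := fun p => by simp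
      right_inv := fun f => by
        ext i
        refine Fin.lastCases ?_ (fun j => ?_) i
        · simp
        · simp
      map_add' := fun p q => by
        ext i
        refine Fin.lastCases ?_ (fun j => ?_) i
        · simp
        · simp
      map_smul' := fun c p => by
        ext i
        refine Fin.lastCases ?_ (fun j => ?_) i
        · simp
        · simp }

theorem snocCLE_castSucc (n : ℕ) (p : (Fin n → ℝ) × ℝ) (i : Fin n) :
    snocCLE n p i.castSucc = p.1 i := by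
  simp [snocCLE]

theorem snocCLE_last (n : ℕ) (p : (Fin n → ℝ) × ℝ) : snocCLE n p (Fin.last n) = p.2 := by
  simp [snocCLE]

theorem norm_snocCLE (n : ℕ) (p : (Fin n → ℝ) × ℝ) : ‖snocCLE n p‖ = max ‖p.1‖ ‖p.2‖ := by
  apply le_antisymm
  · rw [pi_norm_le_iff_of_nonneg (le_max_of_le_left (norm_nonneg _))]
    intro i
    refine Fin.lastCases ?_ (fun j => ?_) i
    · rw [snocCLE_last]; exact le_max_right _ _
    · rw [snocCLE_castSucc]; exact (norm_le_pi_norm p.1 j).trans (le_max_left _ _)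
  · refine max_le ?_ ?_
    · rw [pi_norm_le_iff_of_nonneg (norm_nonneg _)]
      intro j
      rw [← snocCLE_castSucc]
      exact norm_le_pi_norm _ _
    · rw [← snocCLE_last n p]
      exact norm_le_pi_norm _ _

theorem snocCLE_closedBall (n : ℕ) :
    snocCLE n '' (closedBall (0 : Fin n → ℝ) 1 ×ˢ Icc (-1) 1) = closedBall 0 1 := by
  ext y
  constructor
  · rintro ⟨p, ⟨h1, h2⟩, rfl⟩
    rw [mem_closedBall_zero_iff] at h1 ⊢
    rw [norm_snocCLE]
    exact max_le h1 (by rw [Real.norm_eq_abs, abs_le]; exact h2)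
  · intro hy
    refine ⟨(snocCLE n).symm y, ?_, (snocCLE n).apply_symm_apply y⟩
    rw [mem_closedBall_zero_iff, ← (snocCLE n).apply_symm_apply y, norm_snocCLE, max_le_iff] at hy
    refine ⟨by rw [mem_closedBall_zero_iff]; exact hy.1, ?_⟩
    have := hy.2
    rwa [Real.norm_eq_abs, abs_le] at this

theorem snocCLE_sphere (n : ℕ) :
    snocCLE n '' (prodBd (closedBall (0 : Fin n → ℝ) 1) (sphere 0 1)) = sphere 0 1 := by
  ext y
  constructor
  · rintro ⟨p, hp, rfl⟩
    rw [mem_sphere_zero_iff_norm, norm_snocCLE]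
    rcases hp with ⟨h1, h2⟩ | ⟨h1, h2⟩
    · rw [mem_sphere_zero_iff_norm] at h1
      rw [h1]
      exact max_eq_left (by rw [Real.norm_eq_abs, abs_le]; exact h2)
    · rw [mem_closedBall_zero_iff] at h1
      have : ‖p.2‖ = 1 := by
        rcases h2 with h2 | h2
        · rw [h2]; simp
        · have h2' : p.2 = 1 := h2
          rw [h2']; simp
      rw [this]
      exact max_eq_right h1
  · intro hy
    refine ⟨(snocCLE n).symm y, ?_, (snocCLE n).apply_symm_apply y⟩
    rw [mem_sphere_zero_iff_norm, ← (snocCLE n).apply_symm_apply y, norm_snocCLE] at hy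
    set p := (snocCLE n).symm y
    have h1 : ‖p.1‖ ≤ 1 := hy ▸ le_max_left _ _
    have h2 : ‖p.2‖ ≤ 1 := hy ▸ le_max_right _ _
    rcases max_choice ‖p.1‖ ‖p.2‖ with h | h
    · rw [h] at hy
      left
      exact ⟨by rw [mem_sphere_zero_iff_norm]; exact hy, by
        rwa [Real.norm_eq_abs, abs_le] at h2⟩
    · rw [h] at hy
      right
      refine ⟨by rw [mem_closedBall_zero_iff]; exact h1, ?_⟩
      rw [Real.norm_eq_abs] at hy
      rcases (abs_eq zero_le_one).1 hy with h3 | h3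
      · right; exact h3
      · left; exact h3

/-- the product of a conical `n`-ball with `[-1,1]` is a conical `(n+1)`-ball -/
theorem ConBall.prodIcc {n : ℕ} {C B : Set E} (h : ConBall n C B) :
    ConBall (n + 1) (C ×ˢ Icc (-1 : ℝ) 1) (prodBd C B) := by
  obtain ⟨hBC, φ, hφ⟩ := h
  have hI : ConicalSet (Icc (-1 : ℝ) 1) := P073.Convex.conicalSet (convex_Icc (-1 : ℝ) 1)
  let ψ : ConHomeo (C ×ˢ Icc (-1 : ℝ) 1) (closedBall (0 : Fin (n + 1) → ℝ) 1) :=
    ((φ.prodM (ConHomeo.refl hI)).trans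
      (ConHomeo.ofCLE (snocCLE n) (φ.conicalSet_right.prodM hI))).cast rfl (snocCLE_closedBall n)
  refine ⟨?_, ψ, ?_⟩
  · rintro z (⟨h1, h2⟩ | ⟨h1, h2⟩)
    · exact ⟨hBC h1, h2⟩
    · refine ⟨h1, ?_⟩
      rcases h2 with h2 | h2
      · rw [h2]; exact ⟨le_refl _, by norm_num⟩
      · have h2' : z.2 = 1 := h2
        rw [h2']; exact ⟨by norm_num, le_refl _⟩
  · have h1 : ψ.toFun = fun z => snocCLE n (φ.toFun z.1, z.2) := rfl
    rw [h1, ← snocCLE_sphere n]
    have h2 : (fun z : E × ℝ => snocCLE n (φ.toFun z.1, z.2)) =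
        (snocCLE n) ∘ (fun z : E × ℝ => (φ.toFun z.1, z.2)) := rfl
    rw [h2, image_comp]
    congr 1
    ext ⟨a, t⟩
    constructor
    · rintro ⟨⟨x, s⟩, hx, he⟩
      obtain ⟨rfl, rfl⟩ := Prod.mk.inj he
      rcases hx with ⟨h3, h4⟩ | ⟨h3, h4⟩
      · exact Or.inl ⟨hφ ▸ mem_image_of_mem _ h3, h4⟩
      · exact Or.inr ⟨φ.mapsTo h3, h4⟩
    · rintro (⟨h3, h4⟩ | ⟨h3, h4⟩)
      · rw [← hφ] at h3
        obtain ⟨x, hx, hxa⟩ := h3
        exact ⟨(x, t), Or.inl ⟨hx, h4⟩, Prod.ext hxa rfl⟩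
      · refine ⟨(φ.invFun a, t), Or.inr ⟨φ.mapsTo_inv h3, h4⟩, Prod.ext (φ.right_inv h3) rfl⟩

/-- slices of a conical ball -/
theorem ConBall.slice {n : ℕ} {C B : Set E} (h : ConBall n C B) (c : ℝ) :
    ConBall n (C ×ˢ ({c} : Set ℝ)) (B ×ˢ ({c} : Set ℝ)) := by
  have hc : ConicalSet ({c} : Set ℝ) := P073.Convex.conicalSet (convex_singleton c)
  have hs : ConHomeo C (C ×ˢ ({c} : Set ℝ)) :=
    { toFun := fun x => (x, c)
      invFun := fun z => z.1
      mapsTo := fun x hx => ⟨hx, rfl⟩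
      mapsTo_inv := fun z hz => hz.1
      left_inv := fun x _ => rfl
      right_inv := fun z hz => Prod.ext rfl (show c = z.2 from hz.2.symm)
      cont := (continuous_id.prodMk continuous_const).continuousOn
      cont_inv := continuous_fst.continuousOn
      conical := (conicalOn_id h.conicalSet).prodMk (conicalOn_const c h.conicalSet) }
  have hs' : ∃ Φ : ConHomeo C (C ×ˢ ({c} : Set ℝ)), ∀ x, Φ.toFun x = (x, c) :=
    ⟨{ toFun := fun x => (x, c)
       invFun := fun z => z.1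
       mapsTo := fun x hx => ⟨hx, rfl⟩
       mapsTo_inv := fun z hz => hz.1
       left_inv := fun x _ => rfl
       right_inv := fun z hz => Prod.ext rfl (show c = z.2 from hz.2.symm)
       cont := (continuous_id.prodMk continuous_const).continuousOn
       cont_inv := continuous_fst.continuousOn
       conical := (conicalOn_id h.conicalSet).prodMk (conicalOn_const c h.conicalSet) },
      fun x => rfl⟩
  obtain ⟨Φ, hΦ⟩ := hs'
  have h1 := h.image Φ (subset_refl _)
  rw [Φ.image_eq] at h1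
  have h2 : Φ.toFun '' B = B ×ˢ ({c} : Set ℝ) := by
    ext z
    constructor
    · rintro ⟨x, hx, rfl⟩
      rw [hΦ]; exact ⟨hx, rfl⟩
    · rintro ⟨hz1, hz2⟩
      exact ⟨z.1, hz1, by rw [hΦ]; exact Prod.ext rfl (show c = z.2 from hz2.symm)⟩
  rwa [h2] at h1

end P073
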