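import Vale.Agent.P073.PR720.Realise
import Vale.Agent.P073.PRT483.Prod

/-!
# P073, block PRT: the doubled complex `K × {-1, 1}`
-/

open Set Metric Topology Filter

namespace P073.PRT

open P073 P073.PR720

variable {E F : Type*} [NormedAddCommGroup E] [NormedSpace ℝ E]
  [NormedAddCommGroup F] [NormedSpace ℝ F]
variable {V B J I S : Type*}

/-- the sign of a Boolean -/
def sg (σ : Bool) : ℝ := if σ then 1 else -1

theorem sg_true : sg true = 1 := rfl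
theorem sg_false : sg false = -1 := rfl

theorem sg_injective : Function.Injective sg := by
  intro a b h
  cases a <;> cases b <;> first | rfl | (simp [sg] at h; try linarith)

theorem sg_mem (σ : Bool) : sg σ ∈ ({-1, 1} : Set ℝ) := by
  cases σ
  · left; rfl
  · right; rfl

theorem exists_sg {t : ℝ} (h : t ∈ ({-1, 1} : Set ℝ)) : ∃ σ, t = sg σ := by
  rcases h with h | h
  · exact ⟨false, h⟩
  · exact ⟨true, h⟩

theorem sg_mem_Icc (σ : Bool) : sg σ ∈ Icc (-1 : ℝ) 1 := by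
  cases σ
  · exact ⟨le_refl _, by norm_num [sg]⟩
  · exact ⟨by norm_num [sg], le_refl _⟩

variable {e0 e1 : B → V} {inc : B → J → Prop}

/-- doubled incidences -/
def inc2 (inc : B → J → Prop) : B × Bool → J × Bool → Prop := fun b j => inc b.1 j.1 ∧ b.2 = j.2

theorem biUnion_inc2 (inc : B → J → Prop) (A : B → Set E) (j : J × Bool) :
    (⋃ b ∈ {b | inc2 inc b j}, A b.1 ×ˢ ({sg b.2} : Set ℝ)) =
      (⋃ b ∈ {b | inc b j.1}, A b) ×ˢ ({sg j.2} : Set ℝ) := by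
  ext ⟨x, t⟩
  simp only [mem_iUnion, mem_prod, mem_singleton_iff, exists_prop, mem_ofPred_eq]
  constructor
  · rintro ⟨⟨b, σ⟩, ⟨h1, h2⟩, h3, h4⟩
    refine ⟨⟨b, h1, h3⟩, ?_⟩
    rw [h4]
    exact congrArg sg h2
  · rintro ⟨⟨b, h1, h3⟩, h4⟩
    exact ⟨(b, j.2), ⟨h1, rfl⟩, h3, h4⟩

/-- local finiteness of the doubled family -/
theorem LF.dbl {ι : Type*} {A : ι → Set E} {W : Set E} (h : LF A W) :
    LF (fun i : ι × Bool => A i.1 ×ˢ ({sg i.2} : Set ℝ)) (W ×ˢ (univ : Set ℝ)) := by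
  rintro ⟨z, t⟩ ⟨hz, -⟩
  obtain ⟨U, hU, hfin⟩ := h z hz
  refine ⟨U ×ˢ univ, prod_mem_nhds hU univ_mem, ?_⟩
  refine ((hfin.prod (Set.toFinite (univ : Set Bool)))).subset ?_
  rintro ⟨i, σ⟩ ⟨⟨x, s⟩, ⟨h1, -⟩, ⟨h2, -⟩⟩
  exact ⟨⟨x, h1, h2⟩, mem_univ _⟩

/-- the product with a full line segment -/
theorem LF.prod {ι : Type*} {A : ι → Set E} {W : Set E} (h : LF A W) (T T' : Set ℝ) :
    LF (fun i => A i ×ˢ T) (W ×ˢ T') := by
  rintro ⟨z, t⟩ ⟨hz, -⟩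
  obtain ⟨U, hU, hfin⟩ := h z hz
  refine ⟨U ×ˢ univ, prod_mem_nhds hU univ_mem, ?_⟩
  refine hfin.subset ?_
  rintro i ⟨⟨x, s⟩, ⟨h1, -⟩, ⟨h2, -⟩⟩
  exact ⟨x, h1, h2⟩

/-- the doubled complex -/
noncomputable def dbl (K : Cx2 e0 e1 inc E) :
    Cx2 (V := V × Bool) (B := B × Bool) (J := J × Bool) (fun b => (e0 b.1, b.2))
      (fun b => (e1 b.1, b.2)) (inc2 inc) (E × ℝ) where
  y := fun v => (K.y v.1, sg v.2)
  arc := fun b => K.arc b.1 ×ˢ {sg b.2}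
  ball := fun b => by
    have h := (K.ball b.1).slice (sg b.2)
    have h2 : ({K.y (e0 b.1), K.y (e1 b.1)} : Set E) ×ˢ ({sg b.2} : Set ℝ) =
        {(K.y (e0 b.1), sg b.2), (K.y (e1 b.1), sg b.2)} := by
      ext ⟨x, t⟩
      simp only [mem_prod, mem_insert_iff, mem_singleton_iff, Prod.mk.injEq]
      tauto
    rw [h2] at h
    exact h
  inj := by
    rintro ⟨v, σ⟩ ⟨w, τ⟩ h
    obtain ⟨h1, h2⟩ := Prod.mk.inj h
    exact Prod.ext (K.inj h1) (sg_injective h2)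
  mem := by
    rintro ⟨b, σ⟩ ⟨v, τ⟩ ⟨h1, h2⟩
    have h3 : sg τ = sg σ := h2
    have h3 := sg_injective h3
    subst h3
    rcases K.mem b v h1 with h | h
    · left; rw [h]
    · right; rw [h]
  inter := by
    rintro ⟨b, σ⟩ ⟨b', τ⟩ hne ⟨x, t⟩ ⟨⟨h1, h2⟩, ⟨h3, h4⟩⟩
    have h2' : t = sg σ := h2
    have h4' : t = sg τ := h4
    have h5 : σ = τ := sg_injective (h2'.symm.trans h4')
    subst h5
    have hbb : b ≠ b' := fun h => hne (by rw [h])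
    obtain ⟨v, hv⟩ := K.inter b b' hbb ⟨h1, h3⟩
    exact ⟨(v, σ), Prod.ext hv h2'.symm⟩
  tile := fun j => K.tile j.1 ×ˢ {sg j.2}
  tball := fun j => by
    rw [biUnion_inc2]
    exact (K.tball j.1).slice (sg j.2)
  tile_arc := by
    rintro j b ⟨x, t⟩ ⟨⟨h1, h2⟩, ⟨h3, h4⟩⟩
    rw [biUnion_inc2]
    exact ⟨K.tile_arc j.1 b.1 ⟨h1, h3⟩, h2⟩
  tile_tile := by
    rintro ⟨j, σ⟩ ⟨k, τ⟩ hne ⟨x, t⟩ ⟨⟨h1, h2⟩, ⟨h3, h4⟩⟩
    have h2' : t = sg σ := h2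
    have h4' : t = sg τ := h4
    have h5 : σ = τ := sg_injective (h2'.symm.trans h4')
    subst h5
    have hjk : j ≠ k := fun h => hne (by rw [h])
    obtain ⟨b, hb⟩ := mem_iUnion.1 (K.tile_tile j k hjk ⟨h1, h3⟩)
    exact mem_iUnion.2 ⟨(b, σ), hb, h2⟩
  arc_tile := by
    rintro ⟨b, σ⟩
    obtain ⟨j, hj⟩ := K.arc_tile b
    exact ⟨(j, σ), hj, rfl⟩
  vert_arc := by
    rintro ⟨v, σ⟩
    obtain ⟨b, hb | hb⟩ := K.vert_arc v
    · exact ⟨(b, σ), Or.inl (by rw [hb])⟩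
    · exact ⟨(b, σ), Or.inr (by rw [hb])⟩
  fin_inc := by
    rintro ⟨j, σ⟩
    refine ((K.fin_inc j).prod (Set.toFinite (univ : Set Bool))).subset ?_
    rintro ⟨b, τ⟩ ⟨h1, h2⟩
    exact ⟨h1, mem_univ _⟩
  lf := by
    refine LF.mono (LF.dbl K.lf) ?_
    refine iUnion_subset fun j => ?_
    rintro ⟨x, t⟩ ⟨h1, -⟩
    exact ⟨mem_iUnion.2 ⟨_, h1⟩, mem_univ _⟩

theorem dbl_y (K : Cx2 e0 e1 inc E) (v : V × Bool) : (dbl K).y v = (K.y v.1, sg v.2) := rfl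
theorem dbl_arc (K : Cx2 e0 e1 inc E) (b : B × Bool) :
    (dbl K).arc b = K.arc b.1 ×ˢ {sg b.2} := rfl
theorem dbl_tile (K : Cx2 e0 e1 inc E) (j : J × Bool) :
    (dbl K).tile j = K.tile j.1 ×ˢ {sg j.2} := rfl

theorem iUnion_dbl_tile (K : Cx2 e0 e1 inc E) :
    (⋃ j, (dbl K).tile j) = (⋃ j, K.tile j) ×ˢ ({-1, 1} : Set ℝ) := by
  ext ⟨x, t⟩
  constructor
  · intro h
    obtain ⟨j, hj1, hj2⟩ := mem_iUnion.1 h
    refine ⟨mem_iUnion.2 ⟨j.1, hj1⟩, ?_⟩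
    have hj2' : t = sg j.2 := hj2
    show t ∈ _
    rw [hj2']; exact sg_mem _
  · rintro ⟨h1, h2⟩
    obtain ⟨j, hj⟩ := mem_iUnion.1 h1
    obtain ⟨σ, hσ⟩ := exists_sg h2
    exact mem_iUnion.2 ⟨(j, σ), hj, hσ⟩

end P073.PRT
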