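import Vale.Agent.P073.PRT483.Thick3
import Vale.Agent.P073.IoD
import Vale.Agent.P073.PT.Mosaic
import Vale.Agent.P073.GB200.Inputs
import Vale.Agent.P073.ALX.Spec

/-!
# P073, block PRT: inputs (Schoenflies in the plane, Alexander in space), openness of the thick
surface from invariance of domain
-/

open Set Metric Topology Filter

namespace P073.PRT

open P073 P073.PR720

theorem ambSch_two : AmbSchP 2 := fun S hS => GB200.ambStd_two S hS

theorem ambSch_three (h : ALX.SpecALX3) : AmbSchP 3 := fun S hS => h S hS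

/-- the homeomorphism of `(Fin 2 → ℝ) × ℝ` and `Fin 3 → ℝ` given by appending a coordinate -/
theorem continuous_init2 : Continuous fun u : Fin 3 → ℝ => (fun i : Fin 2 => u i.castSucc) :=
  continuous_pi fun i => continuous_apply _

/-- **Openness of thick surfaces** in three-space. -/
theorem isOpen_thick {F N : Set (Fin 3 → ℝ)} (hF : SmallDiscs F)
    (κ : ConHomeo (F ×ˢ Icc (-1 : ℝ) 1) N) :
    IsOpen (κ.toFun '' (F ×ˢ Ioo (-1 : ℝ) 1)) := by
  rw [isOpen_iff_mem_nhds]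
  rintro _ ⟨⟨y, s⟩, ⟨hy, hs⟩, rfl⟩
  obtain ⟨D, B, ⟨hD, hDF, U, hU, hDU⟩, hyD, -⟩ := hF y hy 1 one_pos
  obtain ⟨hBD, ψ, hψ⟩ := hD
  -- the chart
  let c : (Fin 3 → ℝ) → (Fin 2 → ℝ) := fun u i => u i.castSucc
  have hc : Continuous c := continuous_init2
  let G : (Fin 3 → ℝ) → (Fin 3 → ℝ) := fun u => κ.toFun (ψ.invFun (c u), u (Fin.last 2))
  have hcb : ∀ u ∈ ball (0 : Fin 3 → ℝ) 1, c u ∈ ball (0 : Fin 2 → ℝ) 1 ∧
      u (Fin.last 2) ∈ Ioo (-1 : ℝ) 1 := by
    intro u hu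
    rw [mem_ball_zero_iff, pi_norm_lt_iff one_pos] at hu
    refine ⟨?_, ?_⟩
    · rw [mem_ball_zero_iff, pi_norm_lt_iff one_pos]
      exact fun i => hu i.castSucc
    · have := hu (Fin.last 2)
      rw [Real.norm_eq_abs, abs_lt] at this
      exact this
  have hmem : ∀ u ∈ ball (0 : Fin 3 → ℝ) 1, (ψ.invFun (c u), u (Fin.last 2)) ∈
      F ×ˢ Ioo (-1 : ℝ) 1 := by
    intro u hu
    exact ⟨hDF (ψ.mapsTo_inv (ball_subset_closedBall (hcb u hu).1)), (hcb u hu).2⟩
  have hsubI : F ×ˢ Ioo (-1 : ℝ) 1 ⊆ F ×ˢ Icc (-1 : ℝ) 1 :=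
    prod_mono (subset_refl _) Ioo_subset_Icc_self
  have hGc : ContinuousOn G (ball 0 1) := by
    refine κ.cont.comp (f := fun u : Fin 3 → ℝ => (ψ.invFun (c u), u (Fin.last 2))) ?_
      fun u hu => hsubI (hmem u hu)
    refine ContinuousOn.prodMk ?_ (continuous_apply _).continuousOn
    exact ψ.cont_inv.comp hc.continuousOn fun u hu => ball_subset_closedBall (hcb u hu).1
  have hGi : InjOn G (ball 0 1) := by
    intro u hu u' hu' he
    have h1 := κ.injOn (hsubI (hmem u hu)) (hsubI (hmem u' hu')) he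
    obtain ⟨h2, h3⟩ := Prod.mk.inj h1
    have h4 : c u = c u' := by
      have := congrArg ψ.toFun h2
      rwa [ψ.right_inv (ball_subset_closedBall (hcb u hu).1),
        ψ.right_inv (ball_subset_closedBall (hcb u' hu').1)] at this
    funext i
    refine Fin.lastCases h3 (fun j => ?_) i
    exact congrFun h4 j
  have hopen := Vale.Agent.P073.Sep.isOpen_image_of_injOn isOpen_ball hGc hGi
  have hsub : G '' ball 0 1 ⊆ κ.toFun '' (F ×ˢ Ioo (-1 : ℝ) 1) := by
    rintro _ ⟨u, hu, rfl⟩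
    exact mem_image_of_mem _ (hmem u hu)
  refine mem_of_superset (hopen.mem_nhds ?_) hsub
  -- the point is in the image
  have hψy : ψ.toFun y ∈ ball (0 : Fin 2 → ℝ) 1 := by
    have h1 := ψ.mapsTo hyD.1
    rw [mem_closedBall_zero_iff] at h1
    rw [mem_ball_zero_iff]
    refine lt_of_le_of_ne h1 fun h => hyD.2 ?_
    have h2 : ψ.toFun y ∈ sphere (0 : Fin 2 → ℝ) 1 := mem_sphere_zero_iff_norm.2 h
    rw [← hψ] at h2
    obtain ⟨y', hy', he⟩ := h2
    have := ψ.injOn (hBD hy') hyD.1 he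
    rwa [← this]
  let u : Fin 3 → ℝ := Fin.snoc (α := fun _ => ℝ) (ψ.toFun y) s
  have hcu : c u = ψ.toFun y := by
    funext i
    simp only [c, u, Fin.snoc_castSucc]
  have hul : u (Fin.last 2) = s := by
    simp only [u, Fin.snoc_last]
  refine ⟨u, ?_, ?_⟩
  · rw [mem_ball_zero_iff, pi_norm_lt_iff one_pos]
    intro i
    refine Fin.lastCases ?_ (fun j => ?_) i
    · rw [hul, Real.norm_eq_abs, abs_lt]; exact hs
    · have h1 : u j.castSucc = ψ.toFun y j := congrFun hcu j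
      rw [h1]
      rw [mem_ball_zero_iff, pi_norm_lt_iff one_pos] at hψy
      exact hψy j
  · show κ.toFun (ψ.invFun (c u), u (Fin.last 2)) = κ.toFun (y, s)
    rw [hcu, hul, ψ.left_inv hyD.1]

end P073.PRT
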