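import Vale.Agent.P073.ConGlue

/-!
# P073, block PRT: the region bounded by a conical sphere inside a conical ball
-/

open Set Metric Topology Filter

namespace P073

variable {E F : Type*} [NormedAddCommGroup E] [NormedSpace ℝ E]
  [NormedAddCommGroup F] [NormedSpace ℝ F]

/-- the conical Schoenflies / Alexander theorem in dimension `n` -/
def AmbSchP (n : ℕ) : Prop :=
  ∀ S : Set (Fin n → ℝ), Nonempty (ConHomeo S (sphere (0 : Fin n → ℝ) 1)) →
    ∃ Φ : ConHomeo (univ : Set (Fin n → ℝ)) (univ : Set (Fin n → ℝ)), Φ.toFun '' S = sphere 0 1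

/-- the region cut off by `S` in the cell `C` with boundary `bd` -/
structure RegionOf (n : ℕ) (C bd S R : Set E) : Prop where
  ball : ConBall n R S
  sub : R ⊆ C
  inter_bd : R ∩ bd = S ∩ bd
  conn : ∀ T : Set E, IsPreconnected T → T ⊆ C → Disjoint T S → (∃ x ∈ T, x ∉ R) → Disjoint T R
  loc : ∀ p ∈ S ∩ bd, ∀ U ∈ 𝓝 p, bd ∩ U ⊆ S → S ∩ U ⊆ bd → ∃ U' ∈ 𝓝 p, C ∩ U' ⊆ R
  loc' : ∀ p ∈ R \ S, ∃ U' ∈ 𝓝 p, C ∩ U' ⊆ R

theorem exists_region_std {n : ℕ} [Nonempty (Fin n)] (hA : AmbSchP n) {S : Set (Fin n → ℝ)}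
    (hS : Nonempty (ConHomeo S (sphere (0 : Fin n → ℝ) 1))) (hSC : S ⊆ closedBall 0 1) :
    ∃ R, RegionOf n (closedBall (0 : Fin n → ℝ) 1) (sphere 0 1) S R := by
  obtain ⟨Φ, hΦ⟩ := hA S hS
  set f := Φ.toFun with hf
  set g := Φ.invFun with hg
  have hfc : Continuous f := continuousOn_univ.1 Φ.cont
  have hgc : Continuous g := continuousOn_univ.1 Φ.cont_inv
  have hgf : ∀ x, g (f x) = x := fun x => Φ.left_inv (mem_univ x)
  have hfg : ∀ x, f (g x) = x := fun x => Φ.right_inv (mem_univ x)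
  have hSf : ∀ x, x ∈ S ↔ f x ∈ sphere (0 : Fin n → ℝ) 1 := by
    intro x
    constructor
    · intro hx; rw [← hΦ]; exact mem_image_of_mem _ hx
    · intro hx
      rw [← hΦ] at hx
      obtain ⟨y, hy, he⟩ := hx
      have : y = x := by rw [← hgf y, ← hgf x]; exact congrArg g he
      rwa [← this]
  set R : Set (Fin n → ℝ) := {x | f x ∈ closedBall (0 : Fin n → ℝ) 1} with hR
  have hRc : IsClosed R := isClosed_closedBall.preimage hfc
  have hRg : R = g '' closedBall 0 1 := by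
    ext x
    constructor
    · intro hx; exact ⟨f x, hx, hgf x⟩
    · rintro ⟨y, hy, rfl⟩
      show f (g y) ∈ closedBall (0 : Fin n → ℝ) 1
      rwa [hfg]
  have hRk : IsCompact R := by
    rw [hRg]; exact (isCompact_closedBall _ _).image hgc
  have hSR : S ⊆ R := fun x hx => sphere_subset_closedBall ((hSf x).1 hx)
  have hRS : ∀ x, x ∈ R \ S ↔ f x ∈ ball (0 : Fin n → ℝ) 1 := by
    intro x
    rw [Set.mem_sdiff, hSf]
    show f x ∈ closedBall 0 1 ∧ _ ↔ _
    rw [mem_closedBall, mem_sphere, mem_ball]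
    constructor
    · rintro ⟨h1, h2⟩; exact lt_of_le_of_ne h1 h2
    · intro h; exact ⟨h.le, h.ne⟩
  have hRSo : IsOpen (R \ S) := by
    have : R \ S = f ⁻¹' ball 0 1 := by ext x; exact hRS x
    rw [this]; exact isOpen_ball.preimage hfc
  have hconn : ∀ T : Set (Fin n → ℝ), IsPreconnected T → Disjoint T S → (∃ x ∈ T, x ∉ R) →
      Disjoint T R := by
    rintro T hT hTS ⟨x, hxT, hxR⟩
    rw [Set.disjoint_left]
    intro y hyT hyR
    obtain ⟨z, hzT, ⟨hz1, hz2⟩⟩ := hT (R \ S) Rᶜ hRSo hRc.isOpen_compl (fun z hz => by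
        by_cases h : z ∈ R
        · exact Or.inl ⟨h, fun h' => Set.disjoint_left.1 hTS hz h'⟩
        · exact Or.inr h)
      ⟨y, hyT, hyR, fun h' => Set.disjoint_left.1 hTS hyT h'⟩ ⟨x, hxT, hxR⟩
    exact hz2 hz1.1
  -- inside the ball
  have hsub : R ⊆ closedBall 0 1 := by
    intro x hx
    by_contra hxn
    rw [mem_closedBall_zero_iff, not_le] at hxn
    -- the ray through `x`
    have hx0 : 0 < ‖x‖ := zero_lt_one.trans hxn
    let T : Set (Fin n → ℝ) := (fun t : ℝ => t • x) '' Ici 1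
    have hT : IsPreconnected T := (isPreconnected_Ici).image _ (by fun_prop)
    have hTS : Disjoint T S := by
      rw [Set.disjoint_left]
      rintro _ ⟨t, ht, rfl⟩ h
      have := hSC h
      rw [mem_closedBall_zero_iff, norm_smul, Real.norm_eq_abs] at this
      have h1 : (1:ℝ) ≤ |t| := (show (1:ℝ) ≤ t from ht).trans (le_abs_self t)
      nlinarith
    obtain ⟨M, hM⟩ := hRk.isBounded.subset_closedBall 0
    have hMx : ‖x‖ ≤ M := by
      have := hM hx
      rwa [mem_closedBall_zero_iff] at this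
    have hM0 : 0 < M := hx0.trans_le hMx
    have hex : ∃ z ∈ T, z ∉ R := by
      refine ⟨(M + 1) • x, ⟨M + 1, by show (1:ℝ) ≤ M + 1; linarith, rfl⟩, fun h => ?_⟩
      have := hM h
      rw [mem_closedBall_zero_iff, norm_smul, Real.norm_eq_abs, abs_of_pos (by linarith)] at this
      nlinarith
    exact Set.disjoint_left.1 (hconn T hT hTS hex) ⟨1, show (1:ℝ) ≤ 1 from le_refl _, one_smul _ _⟩ hx
  have hbd : ∀ x, x ∈ R → x ∈ sphere (0 : Fin n → ℝ) 1 → x ∈ S := by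
    intro x hxR hxs
    by_contra hxS
    have h1 : x ∈ R \ S := ⟨hxR, hxS⟩
    have h2 : R \ S ∈ 𝓝 x := hRSo.mem_nhds h1
    have h3 : Tendsto (fun t : ℝ => t • x) (𝓝[>] 1) (𝓝 x) := by
      have : Tendsto (fun t : ℝ => t • x) (𝓝 1) (𝓝 ((1:ℝ) • x)) := by
        exact (continuous_id.smul continuous_const).tendsto _
      rw [one_smul] at this
      exact this.mono_left nhdsWithin_le_nhds
    have h4 : ∀ᶠ t : ℝ in 𝓝[>] 1, t • x ∈ R \ S := h3 h2
    obtain ⟨t, ht1, ht2⟩ := (h4.and self_mem_nhdsWithin).exists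
    have h5 := hsub ht1.1
    rw [mem_closedBall_zero_iff, norm_smul, mem_sphere_zero_iff_norm.1 hxs, mul_one,
      Real.norm_eq_abs] at h5
    have : (1:ℝ) < t := ht2
    have := le_abs_self t
    linarith
  refine ⟨R, ?_, hsub, ?_, fun T hT _ hTS hx => hconn T hT hTS hx, ?_, ?_⟩
  · refine ⟨hSR, ?_⟩
    have hRcon : ConicalSet R := by
      rw [hRg]
      exact Φ.symm.conicalSet_image (locCone_closedBall_pi n 1).conicalSet (subset_univ _)
    have he : f '' R = closedBall 0 1 := by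
      ext y
      constructor
      · rintro ⟨x, hx, rfl⟩; exact hx
      · intro hy
        exact ⟨g y, (by show f (g y) ∈ closedBall (0 : Fin n → ℝ) 1; rwa [hfg]), hfg y⟩
    refine ⟨(Φ.restr hRcon (subset_univ _)).cast rfl he, ?_⟩
    exact hΦ
  · ext x
    constructor
    · rintro ⟨h1, h2⟩; exact ⟨hbd x h1 h2, h2⟩
    · rintro ⟨h1, h2⟩; exact ⟨hSR h1, h2⟩
  · rintro p ⟨hpS, hpb⟩ U hU h1 h2
    obtain ⟨r, hr, hrU⟩ := Metric.nhds_basis_ball.mem_iff.1 hU
    refine ⟨ball p r, ball_mem_nhds p hr, ?_⟩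
    let A : Set (Fin n → ℝ) := ball 0 1 ∩ ball p r
    have hAc : IsPreconnected A := ((convex_ball _ _).inter (convex_ball _ _)).isPreconnected
    have hAS : Disjoint A S := by
      rw [Set.disjoint_left]
      rintro x ⟨hx1, hx2⟩ hxS
      have := h2 ⟨hxS, hrU hx2⟩
      rw [mem_sphere] at this
      rw [mem_ball] at hx1
      exact hx1.ne this
    -- a point of `R \ S` near `p`
    have hfp : f p ∈ closure (ball (0 : Fin n → ℝ) 1) := by
      rw [closure_ball _ one_ne_zero]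
      exact sphere_subset_closedBall ((hSf p).1 hpS)
    have hcl : p ∈ closure (R \ S) := by
      have : g (f p) ∈ closure (g '' ball 0 1) := by
        exact image_closure_subset_closure_image hgc (mem_image_of_mem _ hfp)
      rw [hgf] at this
      refine closure_mono ?_ this
      rintro _ ⟨y, hy, rfl⟩
      rw [hRS, hfg]; exact hy
    obtain ⟨z, hz, hzRS⟩ := mem_closure_iff.1 hcl (ball p r) isOpen_ball (mem_ball_self hr)
    have hzA : z ∈ A := by
      refine ⟨?_, hz⟩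
      rw [mem_ball]
      refine lt_of_le_of_ne (mem_closedBall.1 (hsub hzRS.1)) fun h => ?_
      exact hzRS.2 (hbd z hzRS.1 (mem_sphere.2 h))
    have hAR : A ⊆ R := by
      intro x hx
      by_contra hxR
      exact Set.disjoint_left.1 (hconn A hAc hAS ⟨x, hx, hxR⟩) hzA hzRS.1
    rintro x ⟨hx1, hx2⟩
    rw [← hRc.closure_eq]
    refine closure_mono hAR ?_
    -- `x` is a limit of `t x`, `t < 1`
    have h3 : Tendsto (fun t : ℝ => t • x) (𝓝[<] 1) (𝓝 x) := by
      have : Tendsto (fun t : ℝ => t • x) (𝓝 1) (𝓝 ((1:ℝ) • x)) := by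
        exact (continuous_id.smul continuous_const).tendsto _
      rw [one_smul] at this
      exact this.mono_left nhdsWithin_le_nhds
    refine mem_closure_of_tendsto h3 ?_
    have h4 : ∀ᶠ t : ℝ in 𝓝[<] 1, t • x ∈ ball p r := h3 (isOpen_ball.mem_nhds hx2)
    have h5 : ∀ᶠ t : ℝ in 𝓝[<] 1, t ∈ Ioo (0:ℝ) 1 := Ioo_mem_nhdsLT zero_lt_one
    filter_upwards [h4, h5] with t ht1 ht2
    refine ⟨?_, ht1⟩
    rw [mem_closedBall_zero_iff] at hx1
    rw [mem_ball_zero_iff, norm_smul, Real.norm_of_nonneg ht2.1.le]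
    calc t * ‖x‖ ≤ t * 1 := by gcongr; exact ht2.1.le
      _ < 1 := by rw [mul_one]; exact ht2.2
  · intro p hp
    exact ⟨R \ S, hRSo.mem_nhds hp, fun x hx => hx.2.1⟩

/-- images of neighbourhoods under a homeomorphism of sets -/
theorem ConHomeo.exists_nhds {X : Set E} {Y : Set F} (φ : ConHomeo X Y) {p : E} (hp : p ∈ X)
    {U : Set F} (hU : U ∈ 𝓝 (φ.toFun p)) : ∃ U' ∈ 𝓝 p, ∀ x ∈ X ∩ U', φ.toFun x ∈ U := by
  have h1 : φ.toFun ⁻¹' U ∈ 𝓝[X] p := φ.cont p hp hU
  rw [mem_nhdsWithin_iff_exists_mem_nhds_inter] at h1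
  obtain ⟨u, hu, h⟩ := h1
  exact ⟨u, hu, fun x hx => h ⟨hx.2, hx.1⟩⟩

/-- **The region bounded by `S` in a conical ball.** -/
theorem ConBall.exists_region {n : ℕ} [Nonempty (Fin n)] (hA : AmbSchP n) {C bd S : Set E}
    (hC : ConBall n C bd) (hS : Nonempty (ConHomeo S (sphere (0 : Fin n → ℝ) 1)))
    (hSC : S ⊆ C) : ∃ R, RegionOf n C bd S R := by
  obtain ⟨hbd, φ, hφ⟩ := hC
  obtain ⟨ψ⟩ := hS
  have hScon : ConicalSet S := ψ.conicalSet_left
  set S' := φ.toFun '' S with hS'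
  have hS'C : S' ⊆ closedBall 0 1 := by
    rintro _ ⟨x, hx, rfl⟩; exact φ.mapsTo (hSC hx)
  obtain ⟨R', h1, h2, h3, h4, h5, h6⟩ := exists_region_std hA
    ⟨(φ.restr hScon hSC).symm.trans ψ⟩ hS'C
  have hinvS : φ.invFun '' S' = S := by
    rw [hS', image_image]
    have : ∀ x ∈ S, φ.invFun (φ.toFun x) = x := fun x hx => φ.left_inv (hSC hx)
    rw [image_congr this, image_id']
  set R := φ.invFun '' R' with hR
  have hRC : R ⊆ C := by
    rintro _ ⟨y, hy, rfl⟩; exact φ.mapsTo_inv (h2 hy)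
  have hmem : ∀ x ∈ C, (x ∈ R ↔ φ.toFun x ∈ R') := by
    intro x hx
    constructor
    · rintro ⟨y, hy, rfl⟩
      rwa [φ.right_inv (h2 hy)]
    · intro h
      exact ⟨_, h, φ.left_inv hx⟩
  have hmemS : ∀ x ∈ C, (x ∈ S ↔ φ.toFun x ∈ S') := by
    intro x hx
    constructor
    · intro h; exact mem_image_of_mem _ h
    · rintro ⟨y, hy, he⟩
      have := φ.injOn (hSC hy) hx he
      rwa [← this]
  have hmemb : ∀ x ∈ C, (x ∈ bd ↔ φ.toFun x ∈ sphere (0 : Fin n → ℝ) 1) := by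
    intro x hx
    rw [← hφ]
    constructor
    · intro h; exact mem_image_of_mem _ h
    · rintro ⟨y, hy, he⟩
      have := φ.injOn (hbd hy) hx he
      rwa [← this]
  refine ⟨R, ?_, hRC, ?_, ?_, ?_, ?_⟩
  · have := h1.image φ.symm h2
    change ConBall n (φ.invFun '' R') (φ.invFun '' S') at this
    rwa [hinvS] at this
  · ext x
    constructor
    · rintro ⟨hx1, hx2⟩
      have hxC := hRC hx1
      have : φ.toFun x ∈ R' ∩ sphere 0 1 := ⟨(hmem x hxC).1 hx1, (hmemb x hxC).1 hx2⟩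
      rw [h3] at this
      exact ⟨(hmemS x hxC).2 this.1, hx2⟩
    · rintro ⟨hx1, hx2⟩
      have hxC := hSC hx1
      exact ⟨(hmem x hxC).2 (h1.1 ((hmemS x hxC).1 hx1)), hx2⟩
  · rintro T hT hTC hTS ⟨x, hxT, hxR⟩
    have hT' : Disjoint (φ.toFun '' T) R' := by
      refine h4 _ (hT.image _ (φ.cont.mono hTC)) ?_ ?_ ⟨_, mem_image_of_mem _ hxT, fun h =>
        hxR ((hmem x (hTC hxT)).2 h)⟩
      · rintro _ ⟨y, hy, rfl⟩; exact φ.mapsTo (hTC hy)
      · rw [Set.disjoint_left]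
        rintro _ ⟨y, hy, rfl⟩ h
        exact Set.disjoint_left.1 hTS hy ((hmemS y (hTC hy)).2 h)
    rw [Set.disjoint_left]
    intro y hy hyR
    exact Set.disjoint_left.1 hT' (mem_image_of_mem _ hy) ((hmem y (hTC hy)).1 hyR)
  · rintro p ⟨hpS, hpb⟩ U hU hU1 hU2
    have hpC := hSC hpS
    -- transport the neighbourhood
    obtain ⟨W, hW, hWU⟩ := φ.symm.exists_nhds (p := φ.toFun p) (φ.mapsTo hpC)
      (U := U) (by show U ∈ 𝓝 (φ.invFun (φ.toFun p)); rwa [φ.left_inv hpC])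
    obtain ⟨W', hW', hsub⟩ := h5 (φ.toFun p) ⟨(hmemS p hpC).1 hpS, (hmemb p hpC).1 hpb⟩ W hW (by
        rintro y ⟨hy1, hy2⟩
        have hyC : y ∈ closedBall (0 : Fin n → ℝ) 1 := sphere_subset_closedBall hy1
        have hz := hWU y ⟨hyC, hy2⟩
        change φ.invFun y ∈ U at hz
        have hzC := φ.mapsTo_inv hyC
        have : φ.invFun y ∈ S := hU1 ⟨(hmemb _ hzC).2 (by rwa [φ.right_inv hyC]), hz⟩
        have := (hmemS _ hzC).1 this
        rwa [φ.right_inv hyC] at this) (by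
        rintro y ⟨hy1, hy2⟩
        have hyC : y ∈ closedBall (0 : Fin n → ℝ) 1 := hS'C hy1
        have hz := hWU y ⟨hyC, hy2⟩
        change φ.invFun y ∈ U at hz
        have hzC := φ.mapsTo_inv hyC
        have : φ.invFun y ∈ bd := hU2 ⟨(hmemS _ hzC).2 (by rwa [φ.right_inv hyC]), hz⟩
        have := (hmemb _ hzC).1 this
        rwa [φ.right_inv hyC] at this)
    obtain ⟨U', hU', hU'W⟩ := φ.exists_nhds hpC hW'
    refine ⟨U', hU', fun x hx => ?_⟩
    exact (hmem x hx.1).2 (hsub ⟨φ.mapsTo hx.1, hU'W x hx⟩)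
  · rintro p ⟨hpR, hpS⟩
    have hpC := hRC hpR
    obtain ⟨W', hW', hsub⟩ := h6 (φ.toFun p) ⟨(hmem p hpC).1 hpR, fun h =>
      hpS ((hmemS p hpC).2 h)⟩
    obtain ⟨U', hU', hU'W⟩ := φ.exists_nhds hpC hW'
    refine ⟨U', hU', fun x hx => ?_⟩
    exact (hmem x hx.1).2 (hsub ⟨φ.mapsTo hx.1, hU'W x hx⟩)

end P073
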