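import Vale.Agent.P073.PRT483.Dbl
import Vale.Agent.P073.PRT483.Region

/-!
# P073, block PRT: thick realisation, first step (vertices)
-/

open Set Metric Topology Filter

namespace P073.PRT

open P073 P073.PR720

variable {E F : Type*} [NormedAddCommGroup E] [NormedSpace ℝ E]
  [NormedAddCommGroup F] [NormedSpace ℝ F]
variable {V B J I S : Type*} {e0 e1 : B → V} {inc : B → J → Prop}

/-- The target cell decomposition, with the short segments `seg v` on its edges: `seg v` replaces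
the crossing point number `v`, with end points `x (v, false)` and `x (v, true)`. -/
structure Tgt (K : Cx2 e0 e1 inc E) (C bd : I → Set F) (q dq : S → Set F) (lab : J → I)
    (face : B → S) (x : V × Bool → F) (seg : V → Set F) : Prop where
  hx : Function.Injective x
  cball : ∀ i, ConBall 3 (C i) (bd i)
  qball : ∀ s, ConBall 2 (q s) (dq s)
  sball : ∀ v, ConBall 1 (seg v) {x (v, false), x (v, true)}
  lf : LF C (⋃ i, C i)
  cell : ∀ i i', i ≠ i' → C i ∩ C i' ⊆ bd i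
  qC : ∀ s i, q s ∩ C i ⊆ bd i
  qq : ∀ s s', s ≠ s' → q s ∩ q s' ⊆ dq s
  fin : ∀ i, {j | lab j = i}.Finite
  face_bd : ∀ b j, inc b j → q (face b) ⊆ bd (lab j)
  dis : ∀ j k, j ≠ k → lab j = lab k → Disjoint (K.tile j) (K.tile k)
  seg_dis : ∀ v w, v ≠ w → Disjoint (seg v) (seg w)
  seg_q : ∀ v s, seg v ∩ q s ⊆ dq s
  seg_C : ∀ v i, seg v ∩ C i ⊆ bd i
  seg0 : ∀ b, seg (e0 b) ⊆ dq (face b)
  seg1 : ∀ b, seg (e1 b) ⊆ dq (face b)
  /-- the doubled arcs -/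
  arcs2 : ∀ s, ∃ a : {b : B × Bool // face b.1 = s} → Set F,
      (∀ b, ConBall 1 (a b) {x (e0 b.1.1, b.1.2), x (e1 b.1.1, b.1.2)}) ∧ (∀ b, a b ⊆ q s) ∧
      (∀ b, a b ∩ dq s = {x (e0 b.1.1, b.1.2), x (e1 b.1.1, b.1.2)}) ∧
      ∀ b b', b ≠ b' → Disjoint (a b) (a b')
  fill : ∀ i, DiscFill (C i) (bd i)

/-- the interval `[-1,1]` -/
abbrev II : Set ℝ := Icc (-1) 1

/-- `surface × {-1,1}` -/
def X0 (K : Cx2 e0 e1 inc E) : Set (E × ℝ) := (⋃ j, K.tile j) ×ˢ ({-1, 1} : Set ℝ)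

/-- with `vertices × [-1,1]` -/
def X1 (K : Cx2 e0 e1 inc E) : Set (E × ℝ) := X0 K ∪ ⋃ v, ({K.y v} : Set E) ×ˢ II

/-- with `arcs × [-1,1]` -/
def X2 (K : Cx2 e0 e1 inc E) : Set (E × ℝ) := X1 K ∪ ⋃ b, K.arc b ×ˢ II

omit [NormedSpace ℝ E] in
theorem closure_union_of {X Y : Set E} {z : E} (hX : z ∈ closure X → z ∈ X)
    (hY : z ∈ closure Y → z ∈ Y) (h : z ∈ closure (X ∪ Y)) : z ∈ X ∪ Y := by
  rw [closure_union] at h
  rcases h with h | h
  · exact Or.inl (hX h)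
  · exact Or.inr (hY h)

theorem X0_closed (K : Cx2 e0 e1 inc E) {z : E × ℝ} (hz : z.1 ∈ ⋃ j, K.tile j)
    (h : z ∈ closure (X0 K)) : z ∈ X0 K := by
  have h1 : (dbl K).tile = fun j => K.tile j.1 ×ˢ {sg j.2} := rfl
  have h2 := (LF.dbl K.lf).closed (fun j => ((dbl K).tball j).isClosed) (z := z)
    ⟨hz, mem_univ _⟩ (by
      have h3 := iUnion_dbl_tile K
      rw [h1] at h3
      rw [h3]; exact h)
  have h3 := iUnion_dbl_tile K
  rw [h1] at h3
  rwa [h3] at h2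

theorem ConBall.slab (K : Cx2 e0 e1 inc E) (v : V) :
    ConBall 1 (({K.y v} : Set E) ×ˢ II) (prodBd ({K.y v} : Set E) ∅) := (conBall_zero _).prodIcc

theorem verts_closed (K : Cx2 e0 e1 inc E) {z : E × ℝ} (hz : z.1 ∈ ⋃ j, K.tile j)
    (h : z ∈ closure (⋃ v, ({K.y v} : Set E) ×ˢ II)) : z ∈ ⋃ v, ({K.y v} : Set E) ×ˢ II :=
  (LF.prod K.lf_vert II univ).closed (fun v => (ConBall.slab K v).isClosed) ⟨hz, mem_univ _⟩ h

theorem arcs_closed (K : Cx2 e0 e1 inc E) {z : E × ℝ} (hz : z.1 ∈ ⋃ j, K.tile j)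
    (h : z ∈ closure (⋃ b, K.arc b ×ˢ II)) : z ∈ ⋃ b, K.arc b ×ˢ II :=
  (LF.prod K.lf_arc II univ).closed (fun b => ((K.ball b).prodIcc).isClosed) ⟨hz, mem_univ _⟩ h

theorem X1_closed (K : Cx2 e0 e1 inc E) {z : E × ℝ} (hz : z.1 ∈ ⋃ j, K.tile j)
    (h : z ∈ closure (X1 K)) : z ∈ X1 K :=
  closure_union_of (X0_closed K hz) (verts_closed K hz) h

theorem X2_closed (K : Cx2 e0 e1 inc E) {z : E × ℝ} (hz : z.1 ∈ ⋃ j, K.tile j)
    (h : z ∈ closure (X2 K)) : z ∈ X2 K :=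
  closure_union_of (X1_closed K hz) (arcs_closed K hz) h

theorem fst_mem_vert (K : Cx2 e0 e1 inc E) {z : E × ℝ} (h : z ∈ ⋃ v, ({K.y v} : Set E) ×ˢ II) :
    z.1 ∈ ⋃ j, K.tile j := by
  obtain ⟨v, hv, -⟩ := mem_iUnion.1 h
  have h1 : z.1 = K.y v := hv
  rw [h1]
  exact K.carrier_subset (Or.inl (mem_range_self v))

theorem fst_mem_arc (K : Cx2 e0 e1 inc E) {z : E × ℝ} (h : z ∈ ⋃ b, K.arc b ×ˢ II) :
    z.1 ∈ ⋃ j, K.tile j := by
  obtain ⟨v, hv, -⟩ := mem_iUnion.1 h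
  exact K.carrier_subset (Or.inr (mem_iUnion.2 ⟨v, hv⟩))

theorem fst_mem_X1 (K : Cx2 e0 e1 inc E) {z : E × ℝ} (h : z ∈ X1 K) : z.1 ∈ ⋃ j, K.tile j := by
  rcases h with h | h
  · exact h.1
  · exact fst_mem_vert K h

theorem fst_mem_X2 (K : Cx2 e0 e1 inc E) {z : E × ℝ} (h : z ∈ X2 K) : z.1 ∈ ⋃ j, K.tile j := by
  rcases h with h | h
  · exact fst_mem_X1 K h
  · exact fst_mem_arc K h

theorem sg_mem_II (σ : Bool) : sg σ ∈ II := sg_mem_Icc σ

theorem prodBd_vert (K : Cx2 e0 e1 inc E) (v : V) :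
    prodBd ({K.y v} : Set E) ∅ = {(K.y v, sg false), (K.y v, sg true)} := by
  unfold prodBd
  rw [empty_prod, empty_union]
  ext ⟨a, t⟩
  simp only [mem_prod, mem_singleton_iff, mem_insert_iff, Prod.mk.injEq]
  constructor
  · rintro ⟨h1, h2 | h2⟩
    · exact Or.inl ⟨h1, h2⟩
    · exact Or.inr ⟨h1, h2⟩
  · rintro (⟨h1, h2⟩ | ⟨h1, h2⟩)
    · exact ⟨h1, Or.inl h2⟩
    · exact ⟨h1, Or.inr h2⟩

theorem exists_vert_tile (K : Cx2 e0 e1 inc E) (v : V) :
    ∃ b j, inc b j ∧ (v = e0 b ∨ v = e1 b) := by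
  obtain ⟨b, hb⟩ := K.vert_arc v
  obtain ⟨j, hj⟩ := K.arc_tile b
  exact ⟨b, j, hj, hb⟩

theorem y_mem_arc (K : Cx2 e0 e1 inc E) {v : V} {b : B} (h : v = e0 b ∨ v = e1 b) :
    K.y v ∈ K.arc b := by
  rcases h with h | h
  · rw [h]; exact (K.ball b).1 (Or.inl rfl)
  · rw [h]; exact (K.ball b).1 (Or.inr rfl)

namespace Tgt

variable {K : Cx2 e0 e1 inc E} {C bd : I → Set F} {q dq : S → Set F} {lab : J → I}
    {face : B → S} {x : V × Bool → F} {seg : V → Set F}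

theorem seg_dq (D : Tgt K C bd q dq lab face x seg) {v : V} {b : B} (h : v = e0 b ∨ v = e1 b) :
    seg v ⊆ dq (face b) := by
  rcases h with h | h
  · rw [h]; exact D.seg0 b
  · rw [h]; exact D.seg1 b

theorem x_mem (D : Tgt K C bd q dq lab face x seg) (v : V) (σ : Bool) : x (v, σ) ∈ seg v := by
  cases σ
  · exact (D.sball v).1 (Or.inl rfl)
  · exact (D.sball v).1 (Or.inr rfl)

theorem seg_bd (D : Tgt K C bd q dq lab face x seg) {v : V} {b : B} {j : J}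
    (h : v = e0 b ∨ v = e1 b) (hj : inc b j) : seg v ⊆ bd (lab j) :=
  ((D.seg_dq h).trans (D.qball _).1).trans (D.face_bd b j hj)

/-- points of `seg v ∩ seg w` -/
theorem seg_eq (D : Tgt K C bd q dq lab face x seg) {v w : V} {z : F} (h : z ∈ seg v)
    (h' : z ∈ seg w) : v = w := by
  by_contra hne
  exact Set.disjoint_left.1 (D.seg_dis v w hne) h h'

/-- arcs of the same face have no common end points -/
theorem ends_ne (D : Tgt K C bd q dq lab face x seg) {b b' : B} (hb : b ≠ b')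
    (hf : face b = face b') {v : V} (h : v = e0 b ∨ v = e1 b) (h' : v = e0 b' ∨ v = e1 b') :
    False := by
  obtain ⟨a, a1, a2, a3, a4⟩ := D.arcs2 (face b)
  have h1 : x (v, true) ∈ a ⟨(b, true), rfl⟩ := by
    refine (a1 ⟨(b, true), rfl⟩).1 ?_
    rcases h with h | h
    · rw [h]; exact Or.inl rfl
    · rw [h]; exact Or.inr rfl
  have h2 : x (v, true) ∈ a ⟨(b', true), hf.symm⟩ := by
    refine (a1 ⟨(b', true), hf.symm⟩).1 ?_
    rcases h' with h | h
    · rw [h]; exact Or.inl rfl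
    · rw [h]; exact Or.inr rfl
  refine Set.disjoint_left.1 (a4 ⟨(b, true), rfl⟩ ⟨(b', true), hf.symm⟩ ?_) h1 h2
  intro h3
  exact hb (congrArg Prod.fst (congrArg Subtype.val h3))

/-- local finiteness of a family each member of which is inside a cell of an incident tile -/
theorem lf_vert (D : Tgt K C bd q dq lab face x seg) : LF seg (⋃ i, C i) := by
  refine D.lf.of_cover (fun v i => ∃ b j, inc b j ∧ (v = e0 b ∨ v = e1 b) ∧ lab j = i)
    (fun v => ?_) (fun i => ?_)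
  · obtain ⟨b, j, hj, hb⟩ := exists_vert_tile K v
    exact ⟨lab j, ⟨b, j, hj, hb, rfl⟩, (D.seg_bd hb hj).trans (D.cball _).1⟩
  · refine ((D.fin i).biUnion (fun j _ => (K.fin_inc j).biUnion (fun b _ =>
      (Set.toFinite ({e0 b, e1 b} : Set V))))).subset ?_
    rintro v ⟨b, j, hj, hb, hi⟩
    refine mem_biUnion (show j ∈ {j | lab j = i} from hi) (mem_biUnion (show b ∈ {b | inc b j} from
      hj) ?_)
    rcases hb with h | h
    · exact Or.inl h
    · exact Or.inr h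

/-- families indexed by the arcs -/
theorem lf_arc (D : Tgt K C bd q dq lab face x seg) {A : B → Set F}
    (hA : ∀ b, A b ⊆ q (face b)) : LF A (⋃ i, C i) := by
  refine D.lf.of_cover (fun b i => ∃ j, inc b j ∧ lab j = i) (fun b => ?_) (fun i => ?_)
  · obtain ⟨j, hj⟩ := K.arc_tile b
    exact ⟨lab j, ⟨j, hj, rfl⟩, ((hA b).trans (D.face_bd b j hj)).trans (D.cball _).1⟩
  · refine ((D.fin i).biUnion (fun j _ => K.fin_inc j)).subset ?_
    rintro b ⟨j, hj, hi⟩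
    exact mem_biUnion (show j ∈ {j | lab j = i} from hi) hj

/-- families indexed by the tiles -/
theorem lf_tile (D : Tgt K C bd q dq lab face x seg) {A : J → Set F}
    (hA : ∀ j, A j ⊆ C (lab j)) : LF A (⋃ i, C i) :=
  D.lf.of_cover (fun j i => lab j = i) (fun j => ⟨lab j, rfl, hA j⟩) D.fin

end Tgt

/-- **First step**: `K × {-1,1}` and the vertical segments over the vertices. -/
theorem exists_step1 {K : Cx2 e0 e1 inc E} {C bd : I → Set F} {q dq : S → Set F} {lab : J → I}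
    {face : B → S} {x : V × Bool → F} {seg : V → Set F} (D : Tgt K C bd q dq lab face x seg) :
    ∃ (Y1 : Set F) (φ : ConHomeo (X1 K) Y1), Y1 ⊆ ⋃ i, C i ∧
      (∀ z ∈ ⋃ i, C i, z ∈ closure (φ.toFun '' X0 K) → z ∈ φ.toFun '' X0 K) ∧
      (∀ z ∈ ⋃ i, C i, z ∈ closure Y1 → z ∈ Y1) ∧
      (∀ v σ, φ.toFun (K.y v, sg σ) = x (v, σ)) ∧
      (∀ v, φ.toFun '' (({K.y v} : Set E) ×ˢ II) = seg v) ∧
      (∀ b σ, φ.toFun '' (K.arc b ×ˢ {sg σ}) ⊆ q (face b)) ∧
      (∀ b σ, φ.toFun '' (K.arc b ×ˢ {sg σ}) ∩ dq (face b) = {x (e0 b, σ), x (e1 b, σ)}) ∧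
      (∀ j σ, φ.toFun '' (K.tile j ×ˢ {sg σ}) ⊆ C (lab j)) ∧
      ∀ j σ, φ.toFun '' (K.tile j ×ˢ {sg σ}) ∩ bd (lab j) = φ.toFun '' (K.bd j ×ˢ {sg σ}) := by
  classical
  obtain ⟨K', g, hy, ha, ha', ht, ht', g1, g2, g3⟩ := exists_realisation (dbl K) C bd q dq
    (fun j => lab j.1) (fun b => face b.1) x D.hx (fun i => (D.cball i).1) D.lf D.cell D.qC D.qq
    (fun v s h => D.seg_q v.1 s ⟨D.x_mem v.1 v.2, h⟩)
    (fun i => by
      refine ((D.fin i).prod (Set.toFinite (univ : Set Bool))).subset ?_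
      rintro ⟨j, σ⟩ h
      exact ⟨h, mem_univ _⟩)
    (fun b j h => D.face_bd b.1 j.1 h.1)
    (by
      rintro ⟨j, σ⟩ ⟨k, τ⟩ hne hl
      rw [dbl_tile, dbl_tile, Set.disjoint_left]
      rintro ⟨z, t⟩ ⟨h1, h2⟩ ⟨h3, h4⟩
      have h2' : t = sg σ := h2
      have h4' : t = sg τ := h4
      have h5 : σ = τ := sg_injective (h2'.symm.trans h4')
      subst h5
      have hjk : j ≠ k := fun h => hne (by rw [h])
      exact Set.disjoint_left.1 (D.dis j k hjk hl) h1 h3)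
    (fun s => by
      obtain ⟨a, h1, h2, h3, h4⟩ := D.arcs2 s
      exact ⟨a, h1, h2, h3, h4⟩)
    D.fill
  have hX : (⋃ j, (dbl K).tile j) = X0 K := iUnion_dbl_tile K
  -- the realised surfaces
  obtain ⟨Y0, hY0⟩ : ∃ Y0 : Set F, Y0 = ⋃ j, K'.tile j := ⟨_, rfl⟩
  have hY0C : Y0 ⊆ ⋃ i, C i := hY0 ▸ iUnion_subset fun j => (ht j).trans (subset_iUnion C _)
  have hsegC : (⋃ v, seg v) ⊆ ⋃ i, C i := by
    refine iUnion_subset fun v => ?_
    obtain ⟨b, j, hj, hb⟩ := exists_vert_tile K v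
    exact ((D.seg_bd hb hj).trans (D.cball _).1).trans (subset_iUnion C _)
  have hLFt : LF K'.tile (⋃ i, C i) := by
    refine D.lf.of_cover (fun (j : J × Bool) i => lab j.1 = i) (fun j => ⟨lab j.1, rfl, ht j⟩)
      (fun i => ?_)
    refine ((D.fin i).prod (Set.toFinite (univ : Set Bool))).subset ?_
    rintro ⟨j, σ⟩ h
    exact ⟨h, mem_univ _⟩
  have hY0cl : ∀ z ∈ ⋃ i, C i, z ∈ closure Y0 → z ∈ Y0 := fun z hz h => by
    rw [hY0] at h ⊢
    exact hLFt.closed (fun j => (K'.tball j).isClosed) hz h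
  -- vertical segments meet the surfaces in the end points only
  have hsegY : ∀ v, seg v ∩ Y0 = {x (v, false), x (v, true)} := by
    intro v
    apply Subset.antisymm
    · rintro z ⟨hz, hz'⟩
      rw [hY0] at hz'
      obtain ⟨j, hj⟩ := mem_iUnion.1 hz'
      have h1 : z ∈ K'.bd j := by
        rw [← ht']; exact ⟨hj, D.seg_C v _ ⟨hz, ht j hj⟩⟩
      obtain ⟨b, hb, hzb⟩ := mem_iUnion₂.1 h1
      have h2 : z ∈ K'.arc b ∩ dq (face b.1) := ⟨hzb, D.seg_q v _ ⟨hz, ha b hzb⟩⟩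
      rw [ha'] at h2
      rcases h2 with h | h
      · have h' : z = x (e0 b.1, b.2) := h
        have h3 : v = e0 b.1 := D.seg_eq hz (by rw [h']; exact D.x_mem _ _)
        rw [h', h3]
        cases b.2
        · exact Or.inl rfl
        · exact Or.inr rfl
      · have h' : z = x (e1 b.1, b.2) := h
        have h3 : v = e1 b.1 := D.seg_eq hz (by rw [h']; exact D.x_mem _ _)
        rw [h', h3]
        cases b.2
        · exact Or.inl rfl
        · exact Or.inr rfl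
    · have hxY : ∀ σ, x (v, σ) ∈ Y0 := by
        intro σ
        have : x (v, σ) ∈ K'.toGraph.carrier := by
          rw [← hy]; exact Or.inl (mem_range_self _)
        rw [hY0]
        exact K'.carrier_subset this
      rintro z (h | h)
      · have h' : z = x (v, false) := h
        rw [h']; exact ⟨D.x_mem _ _, hxY _⟩
      · have h' : z = x (v, true) := h
        rw [h']; exact ⟨D.x_mem _ _, hxY _⟩
  obtain ⟨Φ, h1, h2⟩ := ConHomeo.exists_extend_cells (g.cast hX hY0.symm) (fun _ : V => 1)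
    (fun v => ({K.y v} : Set E) ×ˢ II) (fun v => prodBd ({K.y v} : Set E) ∅) seg
    (fun v => {x (v, false), x (v, true)}) (fun v => ConBall.slab K v) D.sball
    (by
      intro v
      rw [prodBd_vert, image_pair, ConHomeo.cast_toFun]
      have h1 := g1 (v, false)
      have h2 := g1 (v, true)
      rw [dbl_y] at h1 h2
      rw [h1, h2])
    (by
      intro v
      apply Subset.antisymm
      · rintro z ⟨⟨hz1, -⟩, ⟨-, hz2⟩⟩
        exact Or.inr ⟨hz1, hz2⟩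
      · intro z hz
        refine ⟨(ConBall.slab K v).1 hz, ?_⟩
        rcases hz with hz | hz
        · exact absurd hz.1 (notMem_empty _)
        · refine ⟨?_, hz.2⟩
          have h1 : z.1 = K.y v := hz.1
          rw [h1]; exact K.carrier_subset (Or.inl (mem_range_self v)))
    hsegY
    (by
      rintro v w hvw z ⟨h1, h2⟩
      exfalso
      apply hvw
      have h1' : z.1 = K.y v := h1.1
      have h2' : z.1 = K.y w := h2.1
      exact K.inj (h1'.symm.trans h2'))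
    (by
      intro v w hvw z hz
      exact absurd hz.2 (Set.disjoint_left.1 (D.seg_dis v w hvw) hz.1))
    (by
      intro z hz h
      refine X0_closed K ?_ h
      exact fst_mem_X1 K hz)
    (by
      intro z hz h
      refine hY0cl z ?_ h
      rcases hz with hz | hz
      · exact hY0C hz
      · exact hsegC hz)
    (fun z hz => LF.prod K.lf_vert II univ z ⟨fst_mem_X1 K hz, mem_univ _⟩)
    (fun z hz => D.lf_vert z (by
      rcases hz with hz | hz
      · exact hY0C hz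
      · exact hsegC hz))
  have hΦ0 : ∀ A ⊆ X0 K, Φ.toFun '' A = g.toFun '' A := fun A hA =>
    (h1.mono hA).image_eq
  have hΦX0 : Φ.toFun '' X0 K = Y0 := by
    rw [hΦ0 _ (subset_refl _), ← hX, g.image_eq, hY0]
  have hvX : ∀ v σ, (K.y v, sg σ) ∈ X0 K := fun v σ =>
    ⟨K.carrier_subset (Or.inl (mem_range_self v)), sg_mem σ⟩
  have harcX : ∀ b σ, K.arc b ×ˢ ({sg σ} : Set ℝ) ⊆ X0 K := by
    rintro b σ ⟨z, t⟩ ⟨hz, ht⟩
    refine ⟨K.carrier_subset (Or.inr (mem_iUnion.2 ⟨b, hz⟩)), ?_⟩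
    have : t = sg σ := ht
    show t ∈ _
    rw [this]; exact sg_mem σ
  have htileX : ∀ j σ, K.tile j ×ˢ ({sg σ} : Set ℝ) ⊆ X0 K := by
    rintro j σ ⟨z, t⟩ ⟨hz, ht⟩
    refine ⟨mem_iUnion.2 ⟨j, hz⟩, ?_⟩
    have : t = sg σ := ht
    show t ∈ _
    rw [this]; exact sg_mem σ
  have hΦa : ∀ b σ, Φ.toFun '' (K.arc b ×ˢ {sg σ}) = K'.arc (b, σ) := fun b σ => by
    rw [hΦ0 _ (harcX b σ)]; exact g2 (b, σ)
  have hΦt : ∀ j σ, Φ.toFun '' (K.tile j ×ˢ {sg σ}) = K'.tile (j, σ) := fun j σ => by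
    rw [hΦ0 _ (htileX j σ)]; exact g3 (j, σ)
  have hΦb : ∀ j σ, Φ.toFun '' (K.bd j ×ˢ {sg σ}) = K'.bd (j, σ) := fun j σ => by
    have e : K.bd j ×ˢ ({sg σ} : Set ℝ) = ⋃ b ∈ {b | inc2 inc b (j, σ)}, (dbl K).arc b :=
      (biUnion_inc2 inc K.arc (j, σ)).symm
    rw [e, image_iUnion₂]
    refine iUnion₂_congr fun b _ => ?_
    rw [dbl_arc]
    exact hΦa b.1 b.2
  refine ⟨Y0 ∪ ⋃ v, seg v, Φ, union_subset hY0C hsegC, ?_, ?_, ?_, h2, ?_, ?_, ?_, ?_⟩
  · rw [hΦX0]; exact hY0cl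
  · intro z hz h
    refine closure_union_of (hY0cl z hz) (fun h => ?_) h
    exact D.lf_vert.closed (fun v => (D.sball v).isClosed) hz h
  · intro v σ
    rw [h1 (hvX v σ)]
    exact g1 (v, σ)
  · intro b σ
    rw [hΦa]; exact ha (b, σ)
  · intro b σ
    rw [hΦa]; exact ha' (b, σ)
  · intro j σ
    rw [hΦt]; exact ht (j, σ)
  · intro j σ
    rw [hΦt, hΦb]; exact ht' (j, σ)

end P073.PRT
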