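import Vale.Agent.P073.PRT483.Thick1

/-!
# P073, block PRT: thick realisation, second step (strips)
-/

open Set Metric Topology Filter

namespace P073.PRT

open P073 P073.PR720

variable {E F : Type*} [NormedAddCommGroup E] [NormedSpace ℝ E]
  [NormedAddCommGroup F] [NormedSpace ℝ F]
variable {V B J I S : Type*} {e0 e1 : B → V} {inc : B → J → Prop}

/-- the boundary of a strip -/
def sB (K : Cx2 e0 e1 inc E) (b : B) : Set (E × ℝ) :=
  prodBd (K.arc b) {K.y (e0 b), K.y (e1 b)}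

theorem sB_ball (K : Cx2 e0 e1 inc E) (b : B) : ConBall 2 (K.arc b ×ˢ II) (sB K b) :=
  (K.ball b).prodIcc

/-- the boundary of a strip consists of two arcs and two vertical segments -/
theorem mem_sB (K : Cx2 e0 e1 inc E) {b : B} {z : E × ℝ} : z ∈ sB K b ↔
    (∃ v, (v = e0 b ∨ v = e1 b) ∧ z ∈ ({K.y v} : Set E) ×ˢ II) ∨
      ∃ σ, z ∈ K.arc b ×ˢ ({sg σ} : Set ℝ) := by
  unfold sB prodBd
  constructor
  · rintro (⟨h1, h2⟩ | ⟨h1, h2⟩)
    · left
      rcases h1 with h1 | h1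
      · exact ⟨e0 b, Or.inl rfl, h1, h2⟩
      · exact ⟨e1 b, Or.inr rfl, h1, h2⟩
    · obtain ⟨σ, hσ⟩ := exists_sg h2
      exact Or.inr ⟨σ, h1, hσ⟩
  · rintro (⟨v, hv, h1, h2⟩ | ⟨σ, h1, h2⟩)
    · left
      have h1' : z.1 = K.y v := h1
      refine ⟨?_, h2⟩
      rcases hv with h | h
      · left; rw [h1', h]
      · right; rw [h1', h]; rfl
    · right
      refine ⟨h1, ?_⟩
      have h2' : z.2 = sg σ := h2
      rw [h2']; exact sg_mem σ

theorem arc_sub_X0 (K : Cx2 e0 e1 inc E) (b : B) (σ : Bool) :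
    K.arc b ×ˢ ({sg σ} : Set ℝ) ⊆ X0 K := by
  rintro ⟨z, t⟩ ⟨hz, ht⟩
  refine ⟨K.carrier_subset (Or.inr (mem_iUnion.2 ⟨b, hz⟩)), ?_⟩
  have : t = sg σ := ht
  show t ∈ _
  rw [this]; exact sg_mem σ

theorem tile_sub_X0 (K : Cx2 e0 e1 inc E) (j : J) (σ : Bool) :
    K.tile j ×ˢ ({sg σ} : Set ℝ) ⊆ X0 K := by
  rintro ⟨z, t⟩ ⟨hz, ht⟩
  refine ⟨mem_iUnion.2 ⟨j, hz⟩, ?_⟩
  have : t = sg σ := ht
  show t ∈ _
  rw [this]; exact sg_mem σ

theorem mem_X0 (K : Cx2 e0 e1 inc E) {z : E × ℝ} :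
    z ∈ X0 K ↔ ∃ j σ, z ∈ K.tile j ×ˢ ({sg σ} : Set ℝ) := by
  constructor
  · rintro ⟨h1, h2⟩
    obtain ⟨j, hj⟩ := mem_iUnion.1 h1
    obtain ⟨σ, hσ⟩ := exists_sg h2
    exact ⟨j, σ, hj, hσ⟩
  · rintro ⟨j, σ, h⟩
    exact tile_sub_X0 K j σ h

theorem vert_sub_X1 (K : Cx2 e0 e1 inc E) (v : V) : ({K.y v} : Set E) ×ˢ II ⊆ X1 K :=
  (subset_iUnion (fun v => ({K.y v} : Set E) ×ˢ II) v).trans subset_union_right

theorem sB_sub_X1 (K : Cx2 e0 e1 inc E) (b : B) : sB K b ⊆ X1 K := by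
  intro z hz
  rcases (mem_sB K).1 hz with ⟨v, -, h⟩ | ⟨σ, h⟩
  · exact vert_sub_X1 K v h
  · exact Or.inl (arc_sub_X0 K b σ h)

theorem mem_II_of_sg {t : ℝ} {σ : Bool} (h : t = sg σ) : t ∈ II := by rw [h]; exact sg_mem_II σ

theorem X1_inter_strip (K : Cx2 e0 e1 inc E) (b : B) : K.arc b ×ˢ II ∩ X1 K = sB K b := by
  apply Subset.antisymm
  · rintro z ⟨⟨h1, h2⟩, h | h⟩
    · exact Or.inr ⟨h1, h.2⟩
    · obtain ⟨v, hv⟩ := mem_iUnion.1 h
      have h3 : z.1 = K.y v := hv.1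
      rw [mem_sB]
      refine Or.inl ⟨v, ?_, hv⟩
      rw [h3] at h1
      exact K.mem b v h1
  · exact subset_inter (sB_ball K b).1 (sB_sub_X1 K b)

theorem strip_inter (K : Cx2 e0 e1 inc E) {b b' : B} (h : b ≠ b') :
    K.arc b ×ˢ II ∩ K.arc b' ×ˢ II ⊆ X1 K := by
  rintro z ⟨⟨h1, h2⟩, ⟨h3, h4⟩⟩
  obtain ⟨v, hv⟩ := K.inter b b' h ⟨h1, h3⟩
  exact vert_sub_X1 K v ⟨hv.symm, h2⟩

/-- **Second step**: the strips over the arcs. -/
theorem exists_step2 (hA : AmbSchP 2) {K : Cx2 e0 e1 inc E} {C bd : I → Set F} {q dq : S → Set F}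
    {lab : J → I} {face : B → S} {x : V × Bool → F} {seg : V → Set F}
    (D : Tgt K C bd q dq lab face x seg) :
    ∃ (Y2 : Set F) (φ : ConHomeo (X2 K) Y2), Y2 ⊆ ⋃ i, C i ∧
      (∀ z ∈ ⋃ i, C i, z ∈ closure (φ.toFun '' X0 K) → z ∈ φ.toFun '' X0 K) ∧
      (∀ z ∈ ⋃ i, C i, z ∈ closure Y2 → z ∈ Y2) ∧
      (∀ v σ, φ.toFun (K.y v, sg σ) = x (v, σ)) ∧
      (∀ v, φ.toFun '' (({K.y v} : Set E) ×ˢ II) = seg v) ∧
      (∀ b, RegionOf 2 (q (face b)) (dq (face b)) (φ.toFun '' sB K b)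
        (φ.toFun '' (K.arc b ×ˢ II))) ∧
      (∀ b σ, φ.toFun '' (K.arc b ×ˢ {sg σ}) ∩ dq (face b) = {x (e0 b, σ), x (e1 b, σ)}) ∧
      (∀ j σ, φ.toFun '' (K.tile j ×ˢ {sg σ}) ⊆ C (lab j)) ∧
      ∀ j σ, φ.toFun '' (K.tile j ×ˢ {sg σ}) ∩ bd (lab j) = φ.toFun '' (K.bd j ×ˢ {sg σ}) := by
  classical
  obtain ⟨Y1, φ, hY1C, hcl0, hcl1, hv, hseg, ha, ha', ht, ht'⟩ := exists_step1 D
  have hqsub : ∀ b, q (face b) ⊆ ⋃ i, C i := by
    intro b
    obtain ⟨j, hj⟩ := K.arc_tile b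
    exact ((D.face_bd b j hj).trans (D.cball _).1).trans (subset_iUnion C _)
  -- the boundary curves of the strips
  have hσsub : ∀ b, φ.toFun '' sB K b ⊆ q (face b) := by
    rintro b _ ⟨z, hz, rfl⟩
    rcases (mem_sB K).1 hz with ⟨v, hv, h⟩ | ⟨σ, h⟩
    · refine (D.qball _).1 (D.seg_dq hv ?_)
      rw [← hseg]; exact mem_image_of_mem _ h
    · exact ha b σ (mem_image_of_mem _ h)
  have hσsph : ∀ b, ConSphere 1 (φ.toFun '' sB K b) := by
    intro b
    obtain ⟨ψ⟩ := (sB_ball K b).conSphere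
    exact ⟨(φ.restr (sB_ball K b).conicalSet_bdry (sB_sub_X1 K b)).symm.trans ψ⟩
  have hreg : ∀ b, ∃ R, RegionOf 2 (q (face b)) (dq (face b)) (φ.toFun '' sB K b) R := fun b =>
    (D.qball _).exists_region hA (hσsph b) (hσsub b)
  choose R hR using hreg
  -- the boundary curves in the same face are disjoint
  have hσdis : ∀ b b', b ≠ b' → face b = face b' →
      Disjoint (φ.toFun '' sB K b) (φ.toFun '' sB K b') := by
    intro b b' hbb hf
    rw [Set.disjoint_left]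
    rintro _ ⟨z, hz, rfl⟩ ⟨z', hz', he⟩
    have := φ.injOn (sB_sub_X1 K b' hz') (sB_sub_X1 K b hz) he
    subst this
    have h1 := (sB_ball K b).1 hz
    have h2 := (sB_ball K b').1 hz'
    obtain ⟨v, hv⟩ := K.inter b b' hbb ⟨h1.1, h2.1⟩
    refine D.ends_ne hbb hf (v := v) (K.mem b v ?_) (K.mem b' v ?_)
    · rw [hv]; exact h1.1
    · rw [hv]; exact h2.1
  -- an end point of `b'` is not in the region of `b`
  have hend : ∀ b b', b ≠ b' → face b = face b' → ∀ σ, x (e0 b', σ) ∉ R b := by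
    intro b b' hbb hf σ h
    have h1 : x (e0 b', σ) ∈ φ.toFun '' sB K b' := by
      rw [← hv]
      refine mem_image_of_mem _ ((mem_sB K).2 (Or.inr ⟨σ, ?_, rfl⟩))
      exact y_mem_arc K (Or.inl rfl)
    have h2 : x (e0 b', σ) ∈ dq (face b) := by
      rw [hf]; exact D.seg0 b' (D.x_mem _ _)
    have h3 : x (e0 b', σ) ∈ R b ∩ dq (face b) := ⟨h, h2⟩
    rw [(hR b).inter_bd] at h3
    exact Set.disjoint_left.1 (hσdis b b' hbb hf) h3.1 h1
  have harcpre : ∀ b σ, IsPreconnected (φ.toFun '' (K.arc b ×ˢ {sg σ})) := by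
    intro b σ
    have h1 : ConBall 1 (φ.toFun '' (K.arc b ×ˢ {sg σ}))
      (φ.toFun '' (({K.y (e0 b), K.y (e1 b)} : Set E) ×ˢ {sg σ})) :=
      ((K.ball b).slice (sg σ)).image φ ((arc_sub_X0 K b σ).trans subset_union_left)
    obtain ⟨-, ψ, -⟩ := h1
    rw [← ψ.symm.image_eq]
    exact (convex_closedBall (0 : Fin 1 → ℝ) 1).isPreconnected.image _ ψ.cont_inv
  have hRpre : ∀ b, IsPreconnected (R b) := by
    intro b
    obtain ⟨-, ψ, -⟩ := (hR b).ball
    rw [← ψ.symm.image_eq]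
    exact (convex_closedBall (0 : Fin 2 → ℝ) 1).isPreconnected.image _ ψ.cont_inv
  -- the region meets `Y1` in the boundary curve
  have hRY : ∀ b, R b ∩ Y1 = φ.toFun '' sB K b := by
    intro b
    have hdq : ∀ z ∈ R b, z ∈ dq (face b) → z ∈ φ.toFun '' sB K b := fun z hz hz' => by
      have : z ∈ R b ∩ dq (face b) := ⟨hz, hz'⟩
      rw [(hR b).inter_bd] at this
      exact this.1
    apply Subset.antisymm
    · rintro z ⟨hz, hzY⟩
      rw [← φ.image_eq] at hzY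
      obtain ⟨w, hw, rfl⟩ := hzY
      rcases hw with hw | hw
      · -- a point of a horizontal tile
        obtain ⟨j, σ, hj⟩ := (mem_X0 K).1 hw
        have h1 : φ.toFun w ∈ φ.toFun '' (K.bd j ×ˢ {sg σ}) := by
          rw [← ht']
          refine ⟨mem_image_of_mem _ hj, D.qC _ _ ⟨(hR b).sub hz, ht j σ (mem_image_of_mem _ hj)⟩⟩
        obtain ⟨w', ⟨hw'1, hw'2⟩, he⟩ := h1
        obtain ⟨b', hb', hwb⟩ := mem_iUnion₂.1 hw'1
        have hwa : φ.toFun w ∈ φ.toFun '' (K.arc b' ×ˢ {sg σ}) := ⟨w', ⟨hwb, hw'2⟩, he⟩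
        by_cases hf : face b = face b'
        · by_cases hbb : b = b'
          · subst hbb
            obtain ⟨w'', hw'', he''⟩ := hwa
            exact ⟨w'', (mem_sB K).2 (Or.inr ⟨σ, hw''⟩), he''⟩
          · exfalso
            have hd : Disjoint (φ.toFun '' (K.arc b' ×ˢ {sg σ})) (φ.toFun '' sB K b) := by
              refine (hσdis b b' hbb hf).symm.mono_left (image_mono ?_)
              intro u hu
              exact (mem_sB K).2 (Or.inr ⟨σ, hu⟩)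
            have hd2 := (hR b).conn _ (harcpre b' σ) (by rw [hf]; exact ha b' σ) hd
              ⟨x (e0 b', σ), by
                rw [← hv]
                exact mem_image_of_mem _ ⟨y_mem_arc K (Or.inl rfl), rfl⟩, hend b b' hbb hf σ⟩
            exact Set.disjoint_left.1 hd2 hwa hz
        · exact hdq _ hz (D.qq _ _ hf ⟨(hR b).sub hz, ha b' σ hwa⟩)
      · -- a point of a vertical segment
        obtain ⟨v, hv⟩ := mem_iUnion.1 hw
        refine hdq _ hz (D.seg_q v _ ⟨?_, (hR b).sub hz⟩)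
        rw [← hseg]; exact mem_image_of_mem _ hv
    · refine subset_inter (hR b).ball.1 ?_
      rintro _ ⟨w, hw, rfl⟩
      exact φ.mapsTo (sB_sub_X1 K b hw)
  have hRR : ∀ b b', b ≠ b' → R b ∩ R b' ⊆ Y1 := by
    rintro b b' hbb z ⟨hz, hz'⟩
    by_cases hf : face b = face b'
    · exfalso
      have hd : Disjoint (R b') (φ.toFun '' sB K b) := by
        rw [Set.disjoint_left]
        intro u hu hu'
        have h1 : u ∈ R b' ∩ Y1 := by
          refine ⟨hu, ?_⟩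
          rw [← hRY b] at hu'
          exact hu'.2
        rw [hRY] at h1
        exact Set.disjoint_left.1 (hσdis b b' hbb hf) hu' h1
      have hxm : x (e0 b', true) ∈ R b' := by
        refine (hR b').ball.1 ?_
        rw [← hv]
        exact mem_image_of_mem _ ((mem_sB K).2 (Or.inr ⟨true, y_mem_arc K (Or.inl rfl), rfl⟩))
      have hd2 := (hR b).conn _ (hRpre b') (by rw [hf]; exact (hR b').sub) hd
        ⟨x (e0 b', true), hxm, hend b b' hbb hf true⟩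
      exact Set.disjoint_left.1 hd2 hz' hz
    · have h1 : z ∈ R b ∩ dq (face b) := ⟨hz, D.qq _ _ hf ⟨(hR b).sub hz, (hR b').sub hz'⟩⟩
      rw [(hR b).inter_bd, ← hRY b] at h1
      exact h1.1.2
  obtain ⟨Φ, h1, h2⟩ := ConHomeo.exists_extend_cells φ (fun _ : B => 2)
    (fun b => K.arc b ×ˢ II) (fun b => sB K b) R (fun b => φ.toFun '' sB K b)
    (fun b => sB_ball K b) (fun b => (hR b).ball) (fun b => rfl) (fun b => X1_inter_strip K b) hRY
    (fun b b' h => strip_inter K h) hRR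
    (fun z hz h => X1_closed K (fst_mem_X2 K hz) h)
    (fun z hz h => hcl1 z (by
      rcases hz with hz | hz
      · exact hY1C hz
      · obtain ⟨b, hb⟩ := mem_iUnion.1 hz
        exact hqsub b ((hR b).sub hb)) h)
    (fun z hz => LF.prod K.lf_arc II univ z ⟨fst_mem_X2 K hz, mem_univ _⟩)
    (fun z hz => D.lf_arc (fun b => (hR b).sub) z (by
      rcases hz with hz | hz
      · exact hY1C hz
      · obtain ⟨b, hb⟩ := mem_iUnion.1 hz
        exact hqsub b ((hR b).sub hb)))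
  have hΦ1 : ∀ A ⊆ X1 K, Φ.toFun '' A = φ.toFun '' A := fun A hA => (h1.mono hA).image_eq
  have hX01 : X0 K ⊆ X1 K := subset_union_left
  have hYC : Y1 ∪ ⋃ b, R b ⊆ ⋃ i, C i :=
    union_subset hY1C (iUnion_subset fun b => (hR b).sub.trans (hqsub b))
  refine ⟨Y1 ∪ ⋃ b, R b, Φ, hYC, ?_, ?_, ?_, ?_, ?_, ?_, ?_, ?_⟩
  · rw [hΦ1 _ hX01]; exact hcl0
  · intro z hz h
    refine closure_union_of (hcl1 z hz) (fun h => ?_) h
    exact (D.lf_arc (fun b => (hR b).sub)).closed (fun b => (hR b).ball.isClosed) hz h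
  · intro v σ
    have h3 : (K.y v, sg σ) ∈ ({K.y v} : Set E) ×ˢ II := ⟨rfl, sg_mem_II σ⟩
    rw [h1 (vert_sub_X1 K v h3), hv]
  · intro v
    rw [hΦ1 _ (vert_sub_X1 K v), hseg]
  · intro b
    rw [hΦ1 _ (sB_sub_X1 K b), h2 b]
    exact hR b
  · intro b σ
    rw [hΦ1 _ ((arc_sub_X0 K b σ).trans hX01)]; exact ha' b σ
  · intro j σ
    rw [hΦ1 _ ((tile_sub_X0 K j σ).trans hX01)]; exact ht j σ
  · intro j σ
    rw [hΦ1 _ ((tile_sub_X0 K j σ).trans hX01), hΦ1]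
    · exact ht' j σ
    · refine Subset.trans ?_ ((tile_sub_X0 K j σ).trans hX01)
      exact prod_mono (K.bd_subset j) (subset_refl _)

end P073.PRT
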