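import Vale.Agent.P073.PRT483.Thick2

/-!
# P073, block PRT: thick realisation, third step (thick tiles)
-/

open Set Metric Topology Filter

namespace P073.PRT

open P073 P073.PR720

variable {E F : Type*} [NormedAddCommGroup E] [NormedSpace ℝ E]
  [NormedAddCommGroup F] [NormedSpace ℝ F]
variable {V B J I S : Type*} {e0 e1 : B → V} {inc : B → J → Prop}

/-- the boundary of a thick tile -/
def sT (K : Cx2 e0 e1 inc E) (j : J) : Set (E × ℝ) := prodBd (K.tile j) (K.bd j)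

theorem sT_ball (K : Cx2 e0 e1 inc E) (j : J) : ConBall 3 (K.tile j ×ˢ II) (sT K j) :=
  ConBall.prodIcc (K.tball j)

theorem mem_sT (K : Cx2 e0 e1 inc E) {j : J} {z : E × ℝ} : z ∈ sT K j ↔
    (∃ b, inc b j ∧ z ∈ K.arc b ×ˢ II) ∨ ∃ σ, z ∈ K.tile j ×ˢ ({sg σ} : Set ℝ) := by
  unfold sT prodBd
  constructor
  · rintro (⟨h1, h2⟩ | ⟨h1, h2⟩)
    · left
      obtain ⟨b, hb, hz⟩ := mem_iUnion₂.1 h1
      exact ⟨b, hb, hz, h2⟩
    · obtain ⟨σ, hσ⟩ := exists_sg h2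
      exact Or.inr ⟨σ, h1, hσ⟩
  · rintro (⟨b, hb, h1, h2⟩ | ⟨σ, h1, h2⟩)
    · exact Or.inl ⟨mem_biUnion (show b ∈ {b | inc b j} from hb) h1, h2⟩
    · right
      refine ⟨h1, ?_⟩
      have h2' : z.2 = sg σ := h2
      rw [h2']; exact sg_mem σ

theorem strip_sub_X2 (K : Cx2 e0 e1 inc E) (b : B) : K.arc b ×ˢ II ⊆ X2 K :=
  (subset_iUnion (fun b => K.arc b ×ˢ II) b).trans subset_union_right

theorem sT_sub_X2 (K : Cx2 e0 e1 inc E) (j : J) : sT K j ⊆ X2 K := by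
  intro z hz
  rcases (mem_sT K).1 hz with ⟨b, -, h⟩ | ⟨σ, h⟩
  · exact strip_sub_X2 K b h
  · exact Or.inl (Or.inl (tile_sub_X0 K j σ h))

theorem y_mem_bd (K : Cx2 e0 e1 inc E) {v : V} {j : J} (h : K.y v ∈ K.tile j) :
    K.y v ∈ K.bd j := by
  obtain ⟨b, hb⟩ := K.vert_arc v
  exact K.tile_arc j b ⟨h, y_mem_arc K hb⟩

theorem X2_inter_thick (K : Cx2 e0 e1 inc E) (j : J) : K.tile j ×ˢ II ∩ X2 K = sT K j := by
  apply Subset.antisymm
  · rintro z ⟨⟨h1, h2⟩, (h | h) | h⟩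
    · exact Or.inr ⟨h1, h.2⟩
    · obtain ⟨v, hv⟩ := mem_iUnion.1 h
      have h3 : z.1 = K.y v := hv.1
      refine Or.inl ⟨?_, h2⟩
      rw [h3] at h1 ⊢
      exact y_mem_bd K h1
    · obtain ⟨b, hb⟩ := mem_iUnion.1 h
      exact Or.inl ⟨K.tile_arc j b ⟨h1, hb.1⟩, h2⟩
  · exact subset_inter (sT_ball K j).1 (sT_sub_X2 K j)

theorem thick_inter (K : Cx2 e0 e1 inc E) {j k : J} (h : j ≠ k) :
    K.tile j ×ˢ II ∩ K.tile k ×ˢ II ⊆ X2 K := by
  rintro z ⟨⟨h1, h2⟩, ⟨h3, h4⟩⟩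
  obtain ⟨b, hb⟩ := mem_iUnion.1 (K.tile_tile j k h ⟨h1, h3⟩)
  exact strip_sub_X2 K b ⟨hb, h2⟩

theorem X2_union_thick (K : Cx2 e0 e1 inc E) :
    X2 K ∪ ⋃ j, K.tile j ×ˢ II = (⋃ j, K.tile j) ×ˢ II := by
  have h0 : (⋃ j, K.tile j) ×ˢ II = ⋃ j, K.tile j ×ˢ II := iUnion_prod_const
  rw [h0]
  refine union_eq_right.2 ?_
  have hm : ∀ (z : E × ℝ) (j : J), z.1 ∈ K.tile j → z.2 ∈ II → z ∈ ⋃ j, K.tile j ×ˢ II :=
    fun z j h1 h2 => mem_iUnion.2 ⟨j, ⟨h1, h2⟩⟩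
  rintro z ((h | h) | h)
  · obtain ⟨j, σ, h1, h2⟩ := (mem_X0 K).1 h
    exact hm z j h1 (mem_II_of_sg h2)
  · obtain ⟨v, h1, h2⟩ := mem_iUnion.1 h
    have h1' : z.1 = K.y v := h1
    obtain ⟨j, hj⟩ := mem_iUnion.1 (K.carrier_subset (Or.inl (mem_range_self v)))
    exact hm z j (by rw [h1']; exact hj) h2
  · obtain ⟨b, h1, h2⟩ := mem_iUnion.1 h
    obtain ⟨j, hj⟩ := K.arc_tile b
    exact hm z j (K.arc_subset_tile hj h1) h2

theorem isPreconnected_of_conBall {n : ℕ} {C B : Set E} (h : ConBall n C B) :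
    IsPreconnected C := by
  obtain ⟨-, ψ, -⟩ := h
  rw [← ψ.symm.image_eq]
  exact (convex_closedBall (0 : Fin n → ℝ) 1).isPreconnected.image _ ψ.cont_inv

theorem bd_nonempty (K : Cx2 e0 e1 inc E) (j : J) : (K.bd j).Nonempty := by
  obtain ⟨ψ⟩ := (K.tball j).conSphere
  have h1 : (fun _ => (1 : ℝ)) ∈ sphere (0 : Fin 2 → ℝ) 1 := by
    rw [mem_sphere_zero_iff_norm]
    exact (pi_norm_const (1:ℝ)).trans norm_one
  exact ⟨_, ψ.mapsTo_inv h1⟩

/-- the output of the thick realisation -/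
structure Thick (K : Cx2 e0 e1 inc E) (C bd : I → Set F) (q dq : S → Set F) (lab : J → I)
    (face : B → S) (x : V × Bool → F) (seg : V → Set F) (N : Set F)
    (κ : ConHomeo ((⋃ j, K.tile j) ×ˢ II) N) : Prop where
  sub : N ⊆ ⋃ i, C i
  cl0 : ∀ z ∈ ⋃ i, C i, z ∈ closure (κ.toFun '' X0 K) → z ∈ κ.toFun '' X0 K
  cl : ∀ z ∈ ⋃ i, C i, z ∈ closure N → z ∈ N
  vert : ∀ v σ, κ.toFun (K.y v, sg σ) = x (v, σ)
  seg : ∀ v, κ.toFun '' (({K.y v} : Set E) ×ˢ II) = seg v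
  strip : ∀ b, RegionOf 2 (q (face b)) (dq (face b)) (κ.toFun '' sB K b)
        (κ.toFun '' (K.arc b ×ˢ II))
  slab : ∀ j, RegionOf 3 (C (lab j)) (bd (lab j)) (κ.toFun '' sT K j)
        (κ.toFun '' (K.tile j ×ˢ II))
  arc_dq : ∀ b σ, κ.toFun '' (K.arc b ×ˢ {sg σ}) ∩ dq (face b) = {x (e0 b, σ), x (e1 b, σ)}
  tile_bd : ∀ j σ, κ.toFun '' (K.tile j ×ˢ {sg σ}) ∩ bd (lab j) =
    κ.toFun '' (K.bd j ×ˢ {sg σ})

/-- **Thick realisation**. -/
theorem exists_thick (hA2 : AmbSchP 2) (hA3 : AmbSchP 3) {K : Cx2 e0 e1 inc E}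
    {C bd : I → Set F} {q dq : S → Set F}
    {lab : J → I} {face : B → S} {x : V × Bool → F} {seg : V → Set F}
    (D : Tgt K C bd q dq lab face x seg) :
    ∃ (N : Set F) (κ : ConHomeo ((⋃ j, K.tile j) ×ˢ II) N),
      Thick K C bd q dq lab face x seg N κ := by
  classical
  obtain ⟨Y2, φ, hY2C, hcl0, hcl2, hv, hseg, hR, ha', ht, ht'⟩ := exists_step2 hA2 D
  -- the boundary spheres of the thick tiles
  have hSsub : ∀ j, φ.toFun '' sT K j ⊆ C (lab j) := by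
    rintro j _ ⟨z, hz, rfl⟩
    rcases (mem_sT K).1 hz with ⟨b, hb, h⟩ | ⟨σ, h⟩
    · exact (D.cball _).1 (D.face_bd b j hb ((hR b).sub (mem_image_of_mem _ h)))
    · exact ht j σ (mem_image_of_mem _ h)
  have hSsph : ∀ j, ConSphere 2 (φ.toFun '' sT K j) := by
    intro j
    obtain ⟨ψ⟩ := (sT_ball K j).conSphere
    exact ⟨(φ.restr (sT_ball K j).conicalSet_bdry (sT_sub_X2 K j)).symm.trans ψ⟩
  have hreg : ∀ j, ∃ P, RegionOf 3 (C (lab j)) (bd (lab j)) (φ.toFun '' sT K j) P := fun j =>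
    (D.cball _).exists_region hA3 (hSsph j) (hSsub j)
  choose P hP using hreg
  have hSdis : ∀ j k, j ≠ k → lab j = lab k →
      Disjoint (φ.toFun '' sT K j) (φ.toFun '' sT K k) := by
    intro j k hjk hl
    rw [Set.disjoint_left]
    rintro _ ⟨z, hz, rfl⟩ ⟨z', hz', he⟩
    have := φ.injOn (sT_sub_X2 K k hz') (sT_sub_X2 K j hz) he
    subst this
    exact Set.disjoint_left.1 (D.dis j k hjk hl) ((sT_ball K j).1 hz).1 ((sT_ball K k).1 hz').1
  -- a boundary point of a tile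
  have hpt' : ∀ k σ, ∃ p, p ∈ φ.toFun '' (K.tile k ×ˢ {sg σ}) ∧
      p ∈ φ.toFun '' sT K k ∧ p ∈ bd (lab k) := by
    intro k σ
    obtain ⟨z, hz⟩ := bd_nonempty K k
    obtain ⟨b, hb, hzb⟩ := mem_iUnion₂.1 hz
    refine ⟨φ.toFun (z, sg σ), ?_, ?_, ?_⟩
    · exact mem_image_of_mem _ ⟨K.bd_subset k hz, rfl⟩
    · exact mem_image_of_mem _ ((mem_sT K).2 (Or.inl ⟨b, hb, hzb, sg_mem_II _⟩))
    · exact D.face_bd b k hb ((hR b).sub (mem_image_of_mem _ ⟨hzb, sg_mem_II _⟩))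
  -- it is not in the regions of the other tiles with the same label
  have hbdS : ∀ j z, z ∈ P j → z ∈ bd (lab j) → z ∈ φ.toFun '' sT K j := by
    intro j z hz hz'
    have : z ∈ P j ∩ bd (lab j) := ⟨hz, hz'⟩
    rw [(hP j).inter_bd] at this
    exact this.1
  have hnot : ∀ j k, j ≠ k → lab j = lab k → ∀ p, p ∈ φ.toFun '' sT K k → p ∈ bd (lab k) →
      p ∉ P j := by
    intro j k hjk hl p hp hp' h
    exact Set.disjoint_left.1 (hSdis j k hjk hl) (hbdS j p h (hl ▸ hp')) hp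
  have hPY : ∀ j, P j ∩ Y2 = φ.toFun '' sT K j := by
    intro j
    apply Subset.antisymm
    · rintro z ⟨hz, hzY⟩
      rw [← φ.image_eq] at hzY
      obtain ⟨w, hw, rfl⟩ := hzY
      rcases hw with (hw | hw) | hw
      · obtain ⟨k, σ, hk⟩ := (mem_X0 K).1 hw
        by_cases hl : lab j = lab k
        · by_cases hjk : j = k
          · subst hjk
            exact mem_image_of_mem _ ((mem_sT K).2 (Or.inr ⟨σ, hk⟩))
          · exfalso
            have hsub : φ.toFun '' (K.tile k ×ˢ {sg σ}) ⊆ φ.toFun '' sT K k := image_mono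
              fun u hu => (mem_sT K).2 (Or.inr ⟨σ, hu⟩)
            have hpre : IsPreconnected (φ.toFun '' (K.tile k ×ˢ {sg σ})) :=
              isPreconnected_of_conBall (((K.tball k).slice (sg σ)).image φ
                (((tile_sub_X0 K k σ).trans subset_union_left).trans subset_union_left))
            obtain ⟨p, hp1, hp2, hp3⟩ := hpt' k σ
            have hd := (hP j).conn _ hpre (by rw [hl]; exact ht k σ)
              ((hSdis j k hjk hl).symm.mono_left hsub) ⟨p, hp1, hnot j k hjk hl p hp2 hp3⟩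
            exact Set.disjoint_left.1 hd (mem_image_of_mem _ hk) hz
        · exact hbdS j _ hz (D.cell _ _ hl ⟨(hP j).sub hz, ht k σ (mem_image_of_mem _ hk)⟩)
      · obtain ⟨v, hv⟩ := mem_iUnion.1 hw
        refine hbdS j _ hz (D.seg_C v _ ⟨?_, (hP j).sub hz⟩)
        rw [← hseg]; exact mem_image_of_mem _ hv
      · obtain ⟨b, hb⟩ := mem_iUnion.1 hw
        exact hbdS j _ hz (D.qC _ _ ⟨(hR b).sub (mem_image_of_mem _ hb), (hP j).sub hz⟩)
    · refine subset_inter (hP j).ball.1 ?_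
      rintro _ ⟨w, hw, rfl⟩
      exact φ.mapsTo (sT_sub_X2 K j hw)
  have hPP : ∀ j k, j ≠ k → P j ∩ P k ⊆ Y2 := by
    rintro j k hjk z ⟨hz, hz'⟩
    by_cases hl : lab j = lab k
    · exfalso
      have hd : Disjoint (P k) (φ.toFun '' sT K j) := by
        rw [Set.disjoint_left]
        intro u hu hu'
        have h1 : u ∈ P k ∩ Y2 := by
          refine ⟨hu, ?_⟩
          rw [← hPY j] at hu'
          exact hu'.2
        rw [hPY] at h1
        exact Set.disjoint_left.1 (hSdis j k hjk hl) hu' h1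
      obtain ⟨p, hp1, hp2, hp3⟩ := hpt' k true
      have hd2 := (hP j).conn _ (isPreconnected_of_conBall (hP k).ball)
        (by rw [hl]; exact (hP k).sub) hd ⟨p, (hP k).ball.1 hp2, hnot j k hjk hl p hp2 hp3⟩
      exact Set.disjoint_left.1 hd2 hz' hz
    · have h1 : z ∈ P j ∩ Y2 := by
        rw [hPY]
        exact hbdS j z hz (D.cell _ _ hl ⟨(hP j).sub hz, (hP k).sub hz'⟩)
      exact h1.2
  obtain ⟨Φ, h1, h2⟩ := ConHomeo.exists_extend_cells φ (fun _ : J => 3)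
    (fun j => K.tile j ×ˢ II) (fun j => sT K j) P (fun j => φ.toFun '' sT K j)
    (fun j => sT_ball K j) (fun j => (hP j).ball) (fun j => rfl) (fun j => X2_inter_thick K j) hPY
    (fun j k h => thick_inter K h) hPP
    (fun z hz h => X2_closed K (by
      rw [X2_union_thick] at hz; exact hz.1) h)
    (fun z hz h => hcl2 z (by
      rcases hz with hz | hz
      · exact hY2C hz
      · obtain ⟨j, hj⟩ := mem_iUnion.1 hz
        exact mem_iUnion.2 ⟨_, (hP j).sub hj⟩) h)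
    (fun z hz => LF.prod K.lf II univ z (by
      rw [X2_union_thick] at hz; exact ⟨hz.1, mem_univ _⟩))
    (fun z hz => D.lf_tile (fun j => (hP j).sub) z (by
      rcases hz with hz | hz
      · exact hY2C hz
      · obtain ⟨j, hj⟩ := mem_iUnion.1 hz
        exact mem_iUnion.2 ⟨_, (hP j).sub hj⟩))
  have hΦ1 : ∀ A ⊆ X2 K, Φ.toFun '' A = φ.toFun '' A := fun A hA => (h1.mono hA).image_eq
  have hX02 : X0 K ⊆ X2 K := subset_union_left.trans subset_union_left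
  have hX12 : X1 K ⊆ X2 K := subset_union_left
  have hYC : Y2 ∪ ⋃ j, P j ⊆ ⋃ i, C i :=
    union_subset hY2C (iUnion_subset fun j => (hP j).sub.trans (subset_iUnion C _))
  refine ⟨Y2 ∪ ⋃ j, P j, Φ.cast (X2_union_thick K) rfl, hYC, ?_, ?_, ?_, ?_, ?_, ?_, ?_, ?_⟩
  · rw [ConHomeo.cast_toFun, hΦ1 _ hX02]; exact hcl0
  · intro z hz h
    refine closure_union_of (hcl2 z hz) (fun h => ?_) h
    exact (D.lf_tile (fun j => (hP j).sub)).closed (fun j => (hP j).ball.isClosed) hz h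
  · intro v σ
    have h3 : (K.y v, sg σ) ∈ ({K.y v} : Set E) ×ˢ II := ⟨rfl, sg_mem_II σ⟩
    rw [ConHomeo.cast_toFun, h1 (hX12 (vert_sub_X1 K v h3)), hv]
  · intro v
    rw [ConHomeo.cast_toFun, hΦ1 _ ((vert_sub_X1 K v).trans hX12), hseg]
  · intro b
    rw [ConHomeo.cast_toFun, hΦ1 _ ((sB_sub_X1 K b).trans hX12), hΦ1 _ (strip_sub_X2 K b)]
    exact hR b
  · intro j
    rw [ConHomeo.cast_toFun, hΦ1 _ (sT_sub_X2 K j), h2 j]
    exact hP j
  · intro b σ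
    rw [ConHomeo.cast_toFun, hΦ1 _ ((arc_sub_X0 K b σ).trans hX02)]; exact ha' b σ
  · intro j σ
    rw [ConHomeo.cast_toFun, hΦ1 _ ((tile_sub_X0 K j σ).trans hX02), hΦ1]
    · exact ht' j σ
    · refine Subset.trans ?_ ((tile_sub_X0 K j σ).trans hX02)
      exact prod_mono (K.bd_subset j) (subset_refl _)

end P073.PRT
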