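import Vale.Agent.P073.PRT483.Thick3

/-!
# P073, block PRT: thick realisation, the open thick surface is open
-/

open Set Metric Topology Filter

namespace P073.PRT

open P073 P073.PR720

variable {E F : Type*} [NormedAddCommGroup E] [NormedSpace ℝ E]
  [NormedAddCommGroup F] [NormedSpace ℝ F]
variable {V B J I S : Type*} {e0 e1 : B → V} {inc : B → J → Prop}

/-- the stars of the crossing points and of the crossed faces consist of the cells of the
neighbouring tiles -/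
structure Star (K : Cx2 e0 e1 inc E) (C bd : I → Set F) (q dq : S → Set F) (lab : J → I)
    (face : B → S) (x : V × Bool → F) (seg : V → Set F) : Prop where
  opn : IsOpen (⋃ i, C i)
  /-- the cells at an interior point of a crossed face -/
  star_b : ∀ b z i, z ∈ q (face b) → z ∉ dq (face b) → z ∈ C i → ∃ j, inc b j ∧ lab j = i
  /-- the boundary of a cell near an interior point of a face -/
  bd_b : ∀ s i z, z ∈ q s → z ∉ dq s → q s ⊆ bd i → ∃ U ∈ 𝓝 z, bd i ∩ U ⊆ q s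
  /-- the cells at a crossing point -/
  star_v : ∀ v z i, z ∈ seg v → z ∈ C i → ∃ j b, inc b j ∧ lab j = i ∧ (v = e0 b ∨ v = e1 b)
  /-- the boundary of a cell near a crossing point -/
  bd_v : ∀ v z i, z ∈ seg v → z ∈ C i → ∃ T : Set S, T.Finite ∧
    (∀ s ∈ T, z ∈ q s ∧ q s ⊆ bd i) ∧ ∃ U ∈ 𝓝 z, bd i ∩ U ⊆ ⋃ s ∈ T, q s
  /-- the faces at a crossing point -/
  star_vb : ∀ v z s, z ∈ seg v → z ∈ q s → ∃ b, face b = s ∧ (v = e0 b ∨ v = e1 b)
  /-- the boundary of a face near a crossing point -/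
  dq_v : ∀ v z s, z ∈ seg v → z ≠ x (v, false) → z ≠ x (v, true) → z ∈ q s →
    ∃ U ∈ 𝓝 z, dq s ∩ U ⊆ seg v

omit [NormedSpace ℝ F] in
theorem mem_interior_of_cells {C : I → Set F} (hlf : LF C (⋃ i, C i)) (hcl : ∀ i, IsClosed (C i))
    (hop : IsOpen (⋃ i, C i)) {N : Set F} {z : F} (hz : z ∈ ⋃ i, C i)
    (h : ∀ i, z ∈ C i → ∃ U ∈ 𝓝 z, C i ∩ U ⊆ N) : N ∈ 𝓝 z := by
  classical
  obtain ⟨U, hU, hfin⟩ := hlf z hz
  have h1 : ∀ i, ∃ W ∈ 𝓝 z, C i ∩ W ⊆ N := by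
    intro i
    by_cases hi : z ∈ C i
    · exact h i hi
    · refine ⟨(C i)ᶜ, (hcl i).isOpen_compl.mem_nhds hi, ?_⟩
      rintro y ⟨h1, h2⟩
      exact absurd h1 h2
  choose W hW hWN using h1
  have h2 : (⋂ i ∈ {i | (C i ∩ U).Nonempty}, W i) ∈ 𝓝 z :=
    (biInter_mem hfin).2 fun i _ => hW i
  filter_upwards [hU, h2, hop.mem_nhds hz] with y hy1 hy2 hy3
  obtain ⟨i, hi⟩ := mem_iUnion.1 hy3
  exact hWN i ⟨hi, mem_iInter₂.1 hy2 i ⟨y, hi, hy1⟩⟩

variable {K : Cx2 e0 e1 inc E} {C bd : I → Set F} {q dq : S → Set F} {lab : J → I}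
    {face : B → S} {x : V × Bool → F} {seg : V → Set F} {N : Set F}
    {κ : ConHomeo ((⋃ j, K.tile j) ×ˢ II) N}

theorem X0_sub (K : Cx2 e0 e1 inc E) : X0 K ⊆ (⋃ j, K.tile j) ×ˢ II := by
  rintro z ⟨h1, h2⟩
  obtain ⟨σ, hσ⟩ := exists_sg h2
  exact ⟨h1, mem_II_of_sg hσ⟩

theorem thick_sub (K : Cx2 e0 e1 inc E) (j : J) : K.tile j ×ˢ II ⊆ (⋃ j, K.tile j) ×ˢ II :=
  prod_mono (subset_iUnion _ j) (subset_refl _)

theorem strip_sub (K : Cx2 e0 e1 inc E) (b : B) : K.arc b ×ˢ II ⊆ (⋃ j, K.tile j) ×ˢ II :=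
  prod_mono ((subset_iUnion _ b).trans (subset_union_right.trans K.carrier_subset))
    (subset_refl _)

theorem mem_Ioo_of_not_X0 {z : E × ℝ} (h : z ∈ (⋃ j, K.tile j) ×ˢ II) (h' : z ∉ X0 K) :
    z.2 ∈ Ioo (-1 : ℝ) 1 := by
  refine ⟨lt_of_le_of_ne h.2.1 fun he => h' ⟨h.1, ?_⟩, lt_of_le_of_ne h.2.2 fun he => h' ⟨h.1, ?_⟩⟩
  · exact Or.inl he.symm
  · exact Or.inr he

namespace Thick

/-- a neighbourhood missing the two outer surfaces -/
theorem exists_away (T : Thick K C bd q dq lab face x seg N κ) {z : F} (hz : z ∈ N)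
    (h0 : z ∉ κ.toFun '' X0 K) : ∃ U ∈ 𝓝 z, ∀ y ∈ U, y ∉ κ.toFun '' X0 K := by
  have h1 : z ∉ closure (κ.toFun '' X0 K) := fun h => h0 (T.cl0 z (T.sub hz) h)
  exact ⟨(closure (κ.toFun '' X0 K))ᶜ, isClosed_closure.isOpen_compl.mem_nhds h1,
    fun y hy h => hy (subset_closure h)⟩

/-- near a point of a thick tile on the boundary of its cell -/
theorem slab_nhds (D : Tgt K C bd q dq lab face x seg)
    (T : Thick K C bd q dq lab face x seg N κ) {j : J} {z : F}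
    (hz : z ∈ κ.toFun '' (K.tile j ×ˢ II)) (h0 : z ∉ κ.toFun '' X0 K) (hb : z ∈ bd (lab j))
    {U : Set F} (hU : U ∈ 𝓝 z) (hbU : bd (lab j) ∩ U ⊆ κ.toFun '' sT K j) :
    ∃ U' ∈ 𝓝 z, C (lab j) ∩ U' ⊆ N := by
  have hzS : z ∈ κ.toFun '' sT K j ∩ bd (lab j) := by
    rw [← (T.slab j).inter_bd]; exact ⟨hz, hb⟩
  have hNz : z ∈ N := by
    obtain ⟨w, hw, rfl⟩ := hz
    exact κ.mapsTo (thick_sub K j hw)
  obtain ⟨U1, hU1, h1⟩ := T.exists_away hNz h0
  obtain ⟨U', hU', h2⟩ := (T.slab j).loc z hzS (U ∩ U1) (inter_mem hU hU1)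
    (fun y hy => hbU ⟨hy.1, hy.2.1⟩) (by
      rintro _ ⟨⟨w, hw, rfl⟩, -, hy⟩
      rcases (mem_sT K).1 hw with ⟨b, hb, h⟩ | ⟨σ, h⟩
      · exact D.face_bd b j hb ((T.strip b).sub (mem_image_of_mem _ h))
      · exact absurd (mem_image_of_mem _ (tile_sub_X0 K j σ h)) (h1 _ hy))
  refine ⟨U', hU', fun y hy => ?_⟩
  obtain ⟨w, hw, rfl⟩ := h2 hy
  exact κ.mapsTo (thick_sub K j hw)

/-- near a point of a strip on the boundary of its face -/
theorem strip_nhds (D : Tgt K C bd q dq lab face x seg)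
    (T : Thick K C bd q dq lab face x seg N κ) {b : B} {v : V} (hv : v = e0 b ∨ v = e1 b) {z : F}
    (hz : z ∈ seg v) (h0 : z ∉ κ.toFun '' X0 K)
    {U : Set F} (hU : U ∈ 𝓝 z) (hbU : dq (face b) ∩ U ⊆ seg v) :
    ∃ U' ∈ 𝓝 z, q (face b) ∩ U' ⊆ κ.toFun '' (K.arc b ×ˢ II) := by
  have hsv : seg v ⊆ κ.toFun '' sB K b := by
    rw [← T.seg]
    exact image_mono fun w hw => (mem_sB K).2 (Or.inl ⟨v, hv, hw⟩)
  have hNz : z ∈ N := by
    rw [← T.seg] at hz
    obtain ⟨w, hw, rfl⟩ := hz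
    refine κ.mapsTo ⟨?_, hw.2⟩
    have h1 : w.1 = K.y v := hw.1
    rw [h1]; exact K.carrier_subset (Or.inl (mem_range_self v))
  obtain ⟨U1, hU1, h1⟩ := T.exists_away hNz h0
  obtain ⟨U', hU', h2⟩ := (T.strip b).loc z ⟨hsv hz, D.seg_dq hv hz⟩ (U ∩ U1) (inter_mem hU hU1)
    (fun y hy => hsv (hbU ⟨hy.1, hy.2.1⟩)) (by
      rintro _ ⟨⟨w, hw, rfl⟩, -, hy⟩
      rcases (mem_sB K).1 hw with ⟨v', hv', h⟩ | ⟨σ, h⟩
      · refine D.seg_dq hv' ?_
        rw [← T.seg]; exact mem_image_of_mem _ h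
      · exact absurd (mem_image_of_mem _ (arc_sub_X0 K b σ h)) (h1 _ hy))
  exact ⟨U', hU', h2⟩

/-- every point of the open thick surface is an interior point of the thick surface -/
theorem nhds (D : Tgt K C bd q dq lab face x seg) (hS : Star K C bd q dq lab face x seg)
    (T : Thick K C bd q dq lab face x seg N κ) {z : F} (hzN : z ∈ N)
    (h0 : z ∉ κ.toFun '' X0 K) : N ∈ 𝓝 z := by
  classical
  refine mem_interior_of_cells D.lf (fun i => (D.cball i).isClosed) hS.opn (T.sub hzN) ?_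
  intro i hi
  rw [← κ.image_eq] at hzN
  obtain ⟨⟨p, t⟩, ⟨hp, ht⟩, rfl⟩ := hzN
  obtain ⟨j, hj⟩ := mem_iUnion.1 hp
  have hNz : κ.toFun (p, t) ∈ N := κ.mapsTo ⟨hp, ht⟩
  by_cases hpb : ∃ b, p ∈ K.arc b
  · obtain ⟨b, hb⟩ := hpb
    by_cases hpv : ∃ v, p = K.y v
    · -- a vertex
      obtain ⟨v, rfl⟩ := hpv
      have hzseg : κ.toFun (K.y v, t) ∈ seg v := by
        rw [← T.seg]; exact mem_image_of_mem _ ⟨rfl, ht⟩
      have hne : ∀ σ, κ.toFun (K.y v, t) ≠ x (v, σ) := by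
        intro σ he
        rw [← T.vert] at he
        exact h0 (he ▸ mem_image_of_mem _ ⟨hp, sg_mem σ⟩)
      obtain ⟨k, b', hb'k, hki, hvb'⟩ := hS.star_v v _ i hzseg hi
      subst hki
      obtain ⟨Tf, hTfin, hT1, U, hU, hUT⟩ := hS.bd_v v _ _ hzseg hi
      -- the vertex is in the tile `k`
      have hvk : K.y v ∈ K.tile k := K.arc_subset_tile hb'k (y_mem_arc K hvb')
      -- each face is covered near the point
      have h1 : ∀ s ∈ Tf, ∃ W ∈ 𝓝 (κ.toFun (K.y v, t)), q s ∩ W ⊆ κ.toFun '' sT K k := by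
        intro s hs
        obtain ⟨b1, hb1, hvb1⟩ := hS.star_vb v _ s hzseg (hT1 s hs).1
        subst hb1
        obtain ⟨W0, hW0, hW0s⟩ := hS.dq_v v _ _ hzseg (hne _) (hne _) (hT1 _ hs).1
        obtain ⟨W, hW, hWs⟩ := T.strip_nhds D hvb1 hzseg h0 hW0 hW0s
        -- `b1` is incident to `k`
        have hinc : inc b1 k := by
          obtain ⟨-, ψ, hψ⟩ := D.qball (face b1)
          have h0c : (0 : Fin 2 → ℝ) ∈ closedBall (0 : Fin 2 → ℝ) 1 :=
            mem_closedBall_self zero_le_one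
          have hw1 : ψ.invFun 0 ∈ q (face b1) := ψ.mapsTo_inv h0c
          have hw2 : ψ.invFun 0 ∉ dq (face b1) := by
            intro h
            have h3 : ψ.toFun (ψ.invFun 0) ∈ sphere (0 : Fin 2 → ℝ) 1 := by
              rw [← hψ]; exact mem_image_of_mem _ h
            rw [ψ.right_inv h0c, mem_sphere_zero_iff_norm, norm_zero] at h3
            exact zero_ne_one h3
          obtain ⟨k', hk', hl⟩ := hS.star_b b1 _ (lab k) hw1 hw2
            ((D.cball _).1 ((hT1 _ hs).2 hw1))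
          have hvk' : K.y v ∈ K.tile k' := K.arc_subset_tile hk' (y_mem_arc K hvb1)
          have : k' = k := by
            by_contra hne
            exact Set.disjoint_left.1 (D.dis k' k hne hl) hvk' hvk
          rw [← this]; exact hk'
        refine ⟨W, hW, hWs.trans (image_mono ?_)⟩
        intro w hw
        exact (mem_sT K).2 (Or.inl ⟨b1, hinc, hw⟩)
      choose! W hW hWk using h1
      have h2 : (⋂ s ∈ Tf, W s) ∈ 𝓝 (κ.toFun (K.y v, t)) :=
        (biInter_mem hTfin).2 fun s hs => hW s hs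
      refine T.slab_nhds D (j := k) (mem_image_of_mem _ ⟨hvk, ht⟩) h0
        (D.seg_bd hvb' hb'k hzseg) (inter_mem hU h2) ?_
      rintro y ⟨hy1, hy2, hy3⟩
      obtain ⟨s, hs, hys⟩ := mem_iUnion₂.1 (hUT ⟨hy1, hy2⟩)
      exact hWk s hs ⟨hys, mem_iInter₂.1 hy3 s hs⟩
    · -- an interior point of an arc
      have hzR : κ.toFun (p, t) ∈ κ.toFun '' (K.arc b ×ˢ II) := mem_image_of_mem _ ⟨hb, ht⟩
      have hzσ : κ.toFun (p, t) ∉ κ.toFun '' sB K b := by
        rintro ⟨w, hw, he⟩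
        have hwm : w ∈ (⋃ j, K.tile j) ×ˢ II := strip_sub K b ((sB_ball K b).1 hw)
        have := κ.injOn hwm ⟨hp, ht⟩ he
        subst this
        rcases (mem_sB K).1 hw with ⟨v, -, h⟩ | ⟨σ, h⟩
        · exact hpv ⟨v, h.1⟩
        · exact h0 (mem_image_of_mem _ (arc_sub_X0 K b σ h))
      have hzq := (T.strip b).sub hzR
      have hzdq : κ.toFun (p, t) ∉ dq (face b) := by
        intro h
        have : κ.toFun (p, t) ∈ κ.toFun '' (K.arc b ×ˢ II) ∩ dq (face b) := ⟨hzR, h⟩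
        rw [(T.strip b).inter_bd] at this
        exact hzσ this.1
      obtain ⟨k, hk, hki⟩ := hS.star_b b _ i hzq hzdq hi
      subst hki
      obtain ⟨U, hU, hUb⟩ := hS.bd_b (face b) (lab k) _ hzq hzdq (D.face_bd b k hk)
      obtain ⟨U1, hU1, hU1b⟩ := (T.strip b).loc' _ ⟨hzR, hzσ⟩
      refine T.slab_nhds D (j := k) (mem_image_of_mem _ ⟨K.arc_subset_tile hk hb, ht⟩) h0
        (D.face_bd b k hk hzq) (inter_mem hU hU1) ?_
      rintro y ⟨hy1, hy2, hy3⟩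
      refine image_mono ?_ (hU1b ⟨hUb ⟨hy1, hy2⟩, hy3⟩)
      intro w hw
      exact (mem_sT K).2 (Or.inl ⟨b, hk, hw⟩)
  · -- an interior point of a tile
    have hzR : κ.toFun (p, t) ∈ κ.toFun '' (K.tile j ×ˢ II) := mem_image_of_mem _ ⟨hj, ht⟩
    have hzσ : κ.toFun (p, t) ∉ κ.toFun '' sT K j := by
      rintro ⟨w, hw, he⟩
      have hwm : w ∈ (⋃ j, K.tile j) ×ˢ II := thick_sub K j ((sT_ball K j).1 hw)
      have := κ.injOn hwm ⟨hp, ht⟩ he
      subst this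
      rcases (mem_sT K).1 hw with ⟨b, -, h⟩ | ⟨σ, h⟩
      · exact hpb ⟨b, h.1⟩
      · exact h0 (mem_image_of_mem _ (tile_sub_X0 K j σ h))
    have hzbd : κ.toFun (p, t) ∉ bd (lab j) := by
      intro h
      have : κ.toFun (p, t) ∈ κ.toFun '' (K.tile j ×ˢ II) ∩ bd (lab j) := ⟨hzR, h⟩
      rw [(T.slab j).inter_bd] at this
      exact hzσ this.1
    have hij : i = lab j := by
      by_contra hne
      exact hzbd (D.cell _ _ (Ne.symm hne) ⟨(T.slab j).sub hzR, hi⟩)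
    subst hij
    obtain ⟨U, hU, hUb⟩ := (T.slab j).loc' _ ⟨hzR, hzσ⟩
    refine ⟨U, hU, fun y hy => ?_⟩
    obtain ⟨w, hw, rfl⟩ := hUb hy
    exact κ.mapsTo (thick_sub K j hw)

/-- **The open thick surface is open.** -/
theorem isOpen (D : Tgt K C bd q dq lab face x seg) (hS : Star K C bd q dq lab face x seg)
    (T : Thick K C bd q dq lab face x seg N κ) :
    IsOpen (κ.toFun '' ((⋃ j, K.tile j) ×ˢ Ioo (-1 : ℝ) 1)) := by
  rw [isOpen_iff_mem_nhds]
  rintro _ ⟨w, hw, rfl⟩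
  have hwm : w ∈ (⋃ j, K.tile j) ×ˢ II := ⟨hw.1, Ioo_subset_Icc_self hw.2⟩
  have h0 : κ.toFun w ∉ κ.toFun '' X0 K := by
    rintro ⟨w', hw', he⟩
    have := κ.injOn (X0_sub K hw') hwm he
    subst this
    rcases hw'.2 with h | h
    · have h' : w'.2 = -1 := h
      have := hw.2.1
      rw [h'] at this; exact lt_irrefl _ this
    · have h' : w'.2 = 1 := h
      have := hw.2.2
      rw [h'] at this; exact lt_irrefl _ this
  have h1 := T.nhds D hS (κ.mapsTo hwm) h0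
  obtain ⟨U, hU, h2⟩ := T.exists_away (κ.mapsTo hwm) h0
  filter_upwards [h1, hU] with y hy hyU
  rw [← κ.image_eq] at hy
  obtain ⟨u, hu, rfl⟩ := hy
  refine mem_image_of_mem _ ⟨hu.1, mem_Ioo_of_not_X0 hu fun h => h2 _ hyU (mem_image_of_mem _ h)⟩

end Thick

end P073.PRT
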